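import Vale.Agent.P354XJ.Iso

/-!
LIM: time functions in a chart; a future curve which stays in a compact set with a time function
has end points.
-/

open scoped ContDiff
open Set Filter Topology

namespace Vale.Agent.P354XJ

open Vale.Agent.P354n

variable {N : Spc} {e : N.Chart} {τ : R4 → ℝ} {y : R4} {K : Set R4} {c : ℝ → N.pt} {s t : ℝ}

/-- τ is a time function at the point y of the chart e. -/
def Tm (e : N.Chart) (τ : R4 → ℝ) (y : R4) : Prop :=
  ContDiffAt ℝ 1 τ y ∧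
    ∀ w ≠ 0, N.g e y w w ≤ 0 → N.g e y w (N.X e y) ≤ 0 → 0 < fderiv ℝ τ y w

/-- Functions with spacelike levels which increase along the time orientation. -/
theorem tm_of_levels (hN : IsSpacetime IsSmooth N) (hy : y ∈ tgt e) (h1 : ContDiffAt ℝ 1 τ y)
    (h2 : 0 < fderiv ℝ τ y (N.X e y)) (h3 : ∀ v ≠ 0, fderiv ℝ τ y v = 0 → 0 < N.g e y v v) :
    Tm e τ y := by
  refine ⟨h1, fun w hw a1 a2 => ?_⟩
  by_contra! a3
  have B : P354.Bilin (N.g e y) := hN.up.bilin e hy
  have sy : N.g e y (N.X e y) w = N.g e y w (N.X e y) := hN.up.symm e hy _ _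
  have tl := hN.timelike e y hy
  set l := fderiv ℝ τ y
  set T := N.X e y
  have v0 : l T • w + (-l w) • T = 0 := by
    by_contra v0
    have k := h3 _ v0 (by simp [mul_comm])
    have k2 : N.g e y (l T • w + (-l w) • T) (l T • w + (-l w) • T) = l T * (l T * N.g e y w w) +
        2 * (l T * (-l w * N.g e y w T)) + -l w * (-l w * N.g e y T T) := by
      simp only [B.add_left, B.add_right, B.smul_left, B.smul_right, sy]
      ring
    have n1 : 0 ≤ -l w := by linarith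
    rw [k2] at k
    nlinarith [mul_nonneg h2.le (mul_nonneg h2.le (neg_nonneg.2 a1)),
      mul_nonneg h2.le (mul_nonneg n1 (neg_nonneg.2 a2)),
      mul_nonneg n1 (mul_nonneg n1 (neg_nonneg.2 tl.le))]
  have k : l T * N.g e y w T + -l w * N.g e y T T = 0 := by
    have k1 := B.add_left (l T • w) ((-l w) • T) T
    have k2 := B.smul_left 0 0 T
    rw [v0, B.smul_left, B.smul_left] at k1
    rw [zero_smul, zero_mul] at k2
    exact k1.symm.trans k2
  have l0 : l w = 0 := by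
    by_contra l0
    have : 0 < -l w := neg_pos.2 (lt_of_le_of_ne a3 l0)
    nlinarith [mul_neg_of_pos_of_neg this tl, mul_nonneg h2.le (neg_nonneg.2 a2)]
  rw [l0, neg_zero, zero_smul, add_zero] at v0
  exact hw ((smul_eq_zero.1 v0).resolve_left h2.ne')

lemma g_cont (hN : IsSpacetime IsSmooth N) {Z : Type} [TopologicalSpace Z] {p a b : Z → R4} {z : Z}
    (hz : p z ∈ tgt e) (hp : ContinuousAt p z) (ha : ContinuousAt a z) (hb : ContinuousAt b z) :
    ContinuousAt (fun z => N.g e (p z) (a z) (b z)) z := by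
  have hT := (isOpen_tgt e).mem_nhds hz
  have c1 : ContinuousAt (fun z => ∑ i, ∑ j, P354p.crd i (a z) * P354p.crd j (b z) *
      N.g e (p z) (P354p.bas i) (P354p.bas j)) z :=
    tendsto_finsetSum _ fun i _ => tendsto_finsetSum _ fun j _ =>
      (((P354p.crd i).continuous.continuousAt.comp ha).mul
        ((P354p.crd j).continuous.continuousAt.comp hb)).mul
        (ContinuousAt.comp (g := fun y => N.g e y (P354p.bas i) (P354p.bas j))
          ((hN.regular e _ _).continuousOn.continuousAt hT) hp)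
  refine c1.congr ?_
  filter_upwards [hp.eventually hT] with x hx
  exact (P354p.bilin_expand (hN.up.bilin e hx) _ _).symm

/-- Future causal vectors at y are bounded by C times their time component. -/
def Cb (e : N.Chart) (τ : R4 → ℝ) (C : ℝ) (y : R4) : Prop :=
  ∀ w, N.g e y w w ≤ 0 → N.g e y w (N.X e y) ≤ 0 → ‖w‖ ≤ C * fderiv ℝ τ y w

lemma Cb.mono {C C' : ℝ} (h : Cb e τ C y) (h0 : 0 < C) (k : C ≤ C') : Cb e τ C' y :=
  fun w a b => (h w a b).trans (mul_le_mul_of_nonneg_right k (by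
    by_contra! n
    exact absurd ((norm_nonneg _).trans (h w a b)) (not_le.2 (mul_neg_of_pos_of_neg h0 n))))

theorem Tm.cb (hN : IsSpacetime IsSmooth N) (hy : y ∈ tgt e) (h : Tm e τ y) :
    ∃ C > 0, ∀ᶠ x in 𝓝 y, Cb e τ C x := by
  have hX : ContinuousAt (N.X e) y := (hN.continuous e).continuousAt ((isOpen_tgt e).mem_nhds hy)
  have c1 : ∀ w, ContinuousAt (fun z : R4 × R4 => N.g e z.1 z.2 z.2) (y, w) := fun w =>
    g_cont hN hy continuousAt_fst continuousAt_snd continuousAt_snd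
  have c2 : ∀ w, ContinuousAt (fun z : R4 × R4 => N.g e z.1 z.2 (N.X e z.1)) (y, w) := fun w =>
    g_cont hN hy continuousAt_fst continuousAt_snd (ContinuousAt.comp (g := N.X e) hX
      continuousAt_fst)
  have c3 : ∀ w, ContinuousAt (fun z : R4 × R4 => fderiv ℝ τ z.1 z.2) (y, w) := fun w =>
    (ContinuousAt.comp (g := fderiv ℝ τ) (h.1.continuousAt_fderiv one_ne_zero)
      continuousAt_fst).clm_apply continuousAt_snd
  have i : Continuous fun w : R4 => (y, w) := by fun_prop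
  have hS : IsCompact (Metric.sphere (0 : R4) 1 ∩
      ({w | N.g e y w w ≤ 0} ∩ {w | N.g e y w (N.X e y) ≤ 0})) :=
    (isCompact_sphere 0 1).inter_right ((isClosed_le (continuous_iff_continuousAt.2 fun w =>
      (c1 w).comp i.continuousAt) continuous_const).inter
      (isClosed_le (continuous_iff_continuousAt.2 fun w => (c2 w).comp i.continuousAt)
        continuous_const))
  obtain ⟨a, a0, ha⟩ := hS.exists_forall_le' (fderiv ℝ τ y).continuous.continuousOn (a := 0)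
    fun w hw => h.2 w (by
      rintro rfl
      simp at hw) hw.2.1 hw.2.2
  refine ⟨2 / a, by positivity, ?_⟩
  have ev := (isCompact_sphere (0 : R4) 1).eventually_forall_of_forall_eventually (x₀ := y)
    (P := fun x w => 0 < N.g e x w w ∨ 0 < N.g e x w (N.X e x) ∨ a / 2 < fderiv ℝ τ x w)
    fun w hw => by
      by_cases k1 : 0 < N.g e y w w
      · exact ((c1 w).eventually (lt_mem_nhds k1)).mono fun _ k => Or.inl k
      by_cases k2 : 0 < N.g e y w (N.X e y)
      · exact ((c2 w).eventually (lt_mem_nhds k2)).mono fun _ k => Or.inr (Or.inl k)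
      · have k3 : a / 2 < fderiv ℝ τ y w :=
          (half_lt_self a0).trans_le (ha w ⟨hw, not_lt.1 k1, not_lt.1 k2⟩)
        exact ((c3 w).eventually (lt_mem_nhds k3)).mono fun _ k => Or.inr (Or.inr k)
  filter_upwards [ev, (isOpen_tgt e).mem_nhds hy] with x hx hx' w b1 b2
  rcases eq_or_ne w 0 with rfl | w0
  · simp
  have n0 := norm_pos_iff.2 w0
  have B := hN.up.bilin e hx'
  have n1 := inv_pos.2 n0
  rcases hx (‖w‖⁻¹ • w) (by simp [norm_smul, n0.ne']) with k | k | k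
  · have k1 : N.g e x (‖w‖⁻¹ • w) (‖w‖⁻¹ • w) = ‖w‖⁻¹ * (‖w‖⁻¹ * N.g e x w w) :=
      (B.smul_left _ _ _).trans (congrArg _ (B.smul_right _ _ _))
    rw [k1] at k
    exact absurd k (not_lt.2 (mul_nonpos_of_nonneg_of_nonpos n1.le
      (mul_nonpos_of_nonneg_of_nonpos n1.le b1)))
  · have k1 : N.g e x (‖w‖⁻¹ • w) (N.X e x) = ‖w‖⁻¹ * N.g e x w (N.X e x) := B.smul_left _ _ _
    rw [k1] at k
    exact absurd k (not_lt.2 (mul_nonpos_of_nonneg_of_nonpos n1.le b2))
  · rw [map_smul, smul_eq_mul, lt_inv_mul_iff₀ n0] at k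
    rw [div_mul_eq_mul_div, le_div_iff₀ a0]
    linarith

/-- Time functions at y are time functions near y. -/
theorem Tm.ev (hN : IsSpacetime IsSmooth N) (hy : y ∈ tgt e) (h : Tm e τ y) :
    ∀ᶠ x in 𝓝 y, Tm e τ x := by
  obtain ⟨C, C0, hC⟩ := h.cb hN hy
  filter_upwards [hC, h.1.eventually (by simp)] with x h1 h2
  refine ⟨h2, fun w w0 a b => ?_⟩
  by_contra! k
  exact absurd ((norm_pos_iff.2 w0).trans_le (h1 w a b))
    (not_lt.2 (mul_nonpos_of_nonneg_of_nonpos C0.le k))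

theorem cb_compact (hN : IsSpacetime IsSmooth N) (hK : IsCompact K) (hKe : K ⊆ tgt e)
    (h : ∀ y ∈ K, Tm e τ y) : ∃ C > 0, ∀ y ∈ K, Cb e τ C y := by
  refine hK.induction_on (p := fun S => ∃ C > 0, ∀ y ∈ S, Cb e τ C y) ⟨1, one_pos, by simp⟩
    (fun _ _ k ⟨C, a, b⟩ => ⟨C, a, fun y hy => b y (k hy)⟩) ?_ fun y hy => ?_
  · rintro _ _ ⟨C, a, b⟩ ⟨C', a', b'⟩
    refine ⟨max C C', lt_max_of_lt_left a, fun y hy => hy.elim
      (fun k => (b y k).mono a (le_max_left _ _)) fun k => (b' y k).mono a' (le_max_right _ _)⟩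
  · obtain ⟨C, a, b⟩ := (h y hy).cb hN (hKe hy)
    exact ⟨_, nhdsWithin_le_nhds b, C, a, fun _ k => k⟩

/-- The velocity of a future curve in a chart. -/
theorem vel {I : Set ℝ} (hc : IsFutureCurve N 0 I c) (ht : I ∈ 𝓝 t) (he : On e (c t)) :
    ∃ w, HasDerivAt (fun s => co e (c s)) w t ∧ N.g e (co e (c t)) w w < 0 ∧
      N.g e (co e (c t)) w (N.X e (co e (c t))) < 0 := by
  obtain ⟨h1, h2⟩ := hc.2 t (mem_of_mem_nhds ht) e he
  obtain ⟨h3, h4⟩ := h2 _ _ rfl rfl
  rw [neg_zero] at h3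
  exact ⟨_, (h1.differentiableWithinAt one_ne_zero).hasDerivWithinAt.hasDerivAt ht, h3, h4⟩

lemma dist_le_of_dom {W W' : ℝ → R4} {f f' : ℝ → ℝ}
    (h1 : ∀ u ∈ Ioo s t, HasDerivAt W (W' u) u ∧ HasDerivAt f (f' u) u ∧ ‖W' u‖ ≤ f' u)
    {u v : ℝ} (hu : u ∈ Ioo s t) (hv : v ∈ Ioo s t) (huv : u ≤ v) : ‖W v - W u‖ ≤ f v - f u := by
  have hsub : Icc u v ⊆ Ioo s t := Icc_subset_Ioo hu.1 hv.2
  exact image_norm_le_of_norm_deriv_right_le_deriv_boundary' (f := fun x => W x - W u) (f' := W')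
    (B := fun x => f x - f u) (B' := f') (a := u) (b := v)
    (fun x hx => ((h1 x (hsub hx)).1.sub_const _).continuousAt.continuousWithinAt)
    (fun x hx => ((h1 x (hsub (Ico_subset_Icc_self hx))).1.sub_const _).hasDerivWithinAt)
    (by simp) (fun x hx => ((h1 x (hsub hx)).2.1.sub_const _).continuousAt.continuousWithinAt)
    (fun x hx => ((h1 x (hsub (Ico_subset_Icc_self hx))).2.1.sub_const _).hasDerivWithinAt)
    (fun x hx => (h1 x (hsub (Ico_subset_Icc_self hx))).2.2) ⟨huv, le_rfl⟩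

lemma conv_of_dist {W : ℝ → R4} {f : ℝ → ℝ} {l : Filter ℝ} [l.NeBot] {L : ℝ}
    (h : ∀ u ∈ Ioo s t, ∀ v ∈ Ioo s t, u ≤ v → ‖W v - W u‖ ≤ f v - f u) (hl : Ioo s t ∈ l)
    (h2 : Tendsto f l (𝓝 L)) : ∃ w, Tendsto W l (𝓝 w) := by
  have k2 : ∀ u ∈ Ioo s t, ∀ v ∈ Ioo s t, dist (W u) (W v) ≤ |f u - f v| := by
    intro u hu v hv
    rcases le_total u v with k | k
    · rw [dist_comm, dist_eq_norm, abs_sub_comm]
      exact (h u hu v hv k).trans (le_abs_self _)
    · rw [dist_eq_norm]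
      exact (h v hv u hu k).trans (le_abs_self _)
  rw [← cauchy_map_iff_exists_tendsto, cauchy_map_iff', tendsto_uniformity_iff_dist_tendsto_zero]
  have k3 : Tendsto (fun p : ℝ × ℝ => |f p.1 - f p.2|) (l ×ˢ l) (𝓝 0) := by
    have := ((h2.comp tendsto_fst).sub (h2.comp (tendsto_snd (f := l)))).abs
    simpa using this
  refine squeeze_zero' (Eventually.of_forall fun _ => dist_nonneg) ?_ k3
  filter_upwards [prod_mem_prod hl hl] with p hp
  exact k2 _ hp.1 _ hp.2

/-- **LIM.** -/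
theorem lim (hN : IsSpacetime IsSmooth N) (hK : IsCompact K) (hKe : K ⊆ tgt e)
    (h : ∀ y ∈ K, Tm e τ y) (hst : s < t) (hc : IsFutureCurve N 0 (Ioo s t) c)
    (hin : ∀ u ∈ Ioo s t, On e (c u) ∧ co e (c u) ∈ K) :
    (∃ x, On e x ∧ co e x ∈ K ∧ Tendsto c (𝓝[<] t) (𝓝 x)) ∧
      ∃ x, On e x ∧ co e x ∈ K ∧ Tendsto c (𝓝[>] s) (𝓝 x) := by
  obtain ⟨C, C0, hC⟩ := cb_compact hN hK hKe h
  choose! w h1 h2 h3 using fun u (hu : u ∈ Ioo s t) =>
    vel hc (Ioo_mem_nhds hu.1 hu.2) (hin u hu).1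
  have d := fun u hu v hv k => dist_le_of_dom (W := fun u => co e (c u)) (W' := w)
    (f := fun u => C * τ (co e (c u))) (f' := fun u => C * fderiv ℝ τ (co e (c u)) (w u))
    (fun u hu => ⟨h1 u hu, (((h _ (hin u hu).2).1.differentiableAt
      one_ne_zero).hasFDerivAt.comp_hasDerivAt u (h1 u hu)).const_mul C,
      hC _ (hin u hu).2 _ (h2 u hu).le (h3 u hu).le⟩) (u := u) (v := v) hu hv k
  have mo : MonotoneOn (fun u => C * τ (co e (c u))) (Ioo s t) := fun u hu v hv k =>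
    sub_nonneg.1 ((norm_nonneg _).trans (d u hu v hv k))
  have ct : ContinuousOn (fun y => C * τ y) K := fun y hy =>
    (continuousAt_const.mul (h y hy).1.continuousAt).continuousWithinAt
  have sub : (fun u => C * τ (co e (c u))) '' Ioo s t ⊆ (fun y => C * τ y) '' K := by
    rintro _ ⟨u, hu, rfl⟩
    exact ⟨_, (hin u hu).2, rfl⟩
  have fin : ∀ (l : Filter ℝ) [l.NeBot] (L : ℝ), Ioo s t ∈ l →
      Tendsto (fun u => C * τ (co e (c u))) l (𝓝 L) →
      ∃ x, On e x ∧ co e x ∈ K ∧ Tendsto c l (𝓝 x) := fun l _ L hl hL => by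
    obtain ⟨z, hz⟩ := conv_of_dist d hl hL
    have zK : z ∈ K := hK.isClosed.mem_of_tendsto hz (mem_of_superset hl fun u hu => (hin u hu).2)
    refine ⟨inv e z, inv_mem (hKe zK), by rwa [co_inv (hKe zK)], ?_⟩
    refine (((inv_cont (hKe zK)).tendsto).comp hz).congr' (mem_of_superset hl fun u hu => ?_)
    exact inv_co (hin u hu).1
  exact ⟨fin _ _ (Ioo_mem_nhdsLT hst) (mo.tendsto_nhdsWithin_Ioo_left (nonempty_Ioo.2 hst)
      ((hK.image_of_continuousOn ct).bddAbove.mono sub)),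
    fin _ _ (Ioo_mem_nhdsGT hst) (mo.tendsto_nhdsWithin_Ioo_right (nonempty_Ioo.2 hst)
      ((hK.image_of_continuousOn ct).bddBelow.mono sub))⟩

end Vale.Agent.P354XJ
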