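import Vale.Agent.P354XJ.Iso
import Vale.Agent.P354XA.Defs

/-!
TF: a closed set P whose boundary S is crossed by future curves from the outside to the inside
is a future set, and S is met at most once.
-/

open scoped ContDiff
open Set Filter Topology

namespace Vale.Agent.P354XJ

open Vale.Agent.P354n
open Vale.Agent.P354XA (Bar)

variable {N : Spc} {P S : Set N.pt} {I : Set ℝ} {c : ℝ → N.pt} {s t : ℝ}

/-- Future curves cross S from the complement of P to P. -/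
structure Cross (N : Spc) (P S : Set N.pt) : Prop where
  closed : IsClosed P
  sub : S ⊆ P
  front : frontier P ⊆ S
  fwd : ∀ I c t, IsFutureCurve N 0 I c → t ∈ I → c t ∈ S → ∀ᶠ s in 𝓝[I ∩ Ioi t] t, c s ∈ P \ S
  bwd : ∀ I c t, IsFutureCurve N 0 I c → t ∈ I → c t ∈ S → ∀ᶠ s in 𝓝[I ∩ Iio t] t, c s ∉ P

lemma sign_of_deriv {f : ℝ → ℝ} {f' : ℝ} (h : HasDerivWithinAt f f' I t) (h0 : 0 < f')
    (ht : f t = 0) : (∀ᶠ s in 𝓝[I ∩ Ioi t] t, 0 < f s) ∧ ∀ᶠ s in 𝓝[I ∩ Iio t] t, f s < 0 := by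
  have k := (hasDerivWithinAt_iff_tendsto_slope.1 h).eventually (lt_mem_nhds h0)
  constructor
  · filter_upwards [nhdsWithin_mono t (show I ∩ Ioi t ⊆ I \ {t} from
      fun s hs => ⟨hs.1, ne_of_gt hs.2⟩) k, self_mem_nhdsWithin] with s h1 h2
    rw [slope_def_field, ht, sub_zero] at h1
    exact (div_pos_iff_of_pos_right (sub_pos.2 h2.2)).1 h1
  · filter_upwards [nhdsWithin_mono t (show I ∩ Iio t ⊆ I \ {t} from
      fun s hs => ⟨hs.1, ne_of_lt hs.2⟩) k, self_mem_nhdsWithin] with s h1 h2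
    rw [slope_def_field, ht, sub_zero] at h1
    have h3 : s - t < 0 := sub_neg.2 h2.2
    by_contra h4
    exact absurd h1 (not_lt.2 (div_nonpos_of_nonneg_of_nonpos (not_lt.1 h4) h3.le))

/-- The crossing property from local time functions. -/
theorem Cross.of_chart (h1 : IsClosed P) (h2 : frontier P ⊆ S)
    (h : ∀ p ∈ S, ∃ (e : N.Chart) (τ : R4 → ℝ), On e p ∧ DifferentiableAt ℝ τ (co e p) ∧
      (∀ w, N.g e (co e p) w w < 0 → N.g e (co e p) w (N.X e (co e p)) < 0 →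
        0 < fderiv ℝ τ (co e p) w) ∧
      ∀ᶠ q in 𝓝 p, (q ∈ P ↔ 0 ≤ τ (co e q)) ∧ (q ∈ S ↔ τ (co e q) = 0)) : Cross N P S := by
  have key : ∀ I c t, IsFutureCurve N 0 I c → t ∈ I → c t ∈ S →
      (∀ᶠ s in 𝓝[I ∩ Ioi t] t, c s ∈ P \ S) ∧ ∀ᶠ s in 𝓝[I ∩ Iio t] t, c s ∉ P := by
    intro I c t hc ht hS
    obtain ⟨e, τ, a1, a2, a3, a4⟩ := h _ hS
    obtain ⟨b1, b2⟩ := hc.2 t ht e a1
    obtain ⟨b3, b4⟩ := b2 _ _ rfl rfl
    rw [neg_zero] at b3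
    have d := a2.hasFDerivAt.comp_hasDerivWithinAt t
      (b1.differentiableWithinAt one_ne_zero).hasDerivWithinAt
    obtain ⟨k1, k2⟩ := sign_of_deriv d (a3 _ b3 b4) (a4.self_of_nhds.2.1 hS)
    have ev := (hc.1 t ht).eventually a4
    constructor
    · filter_upwards [k1, nhdsWithin_mono t inter_subset_left ev] with s s1 s2
      exact ⟨s2.1.2 s1.le, fun s3 => s1.ne' (s2.2.1 s3)⟩
    · filter_upwards [k2, nhdsWithin_mono t inter_subset_left ev] with s s1 s2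
      exact fun s3 => absurd (s2.1.1 s3) (not_le.2 s1)
  refine ⟨h1, fun p hp => ?_, h2, fun I c t a b d => (key I c t a b d).1,
    fun I c t a b d => (key I c t a b d).2⟩
  obtain ⟨e, τ, -, -, -, a4⟩ := h p hp
  exact a4.self_of_nhds.1.2 (a4.self_of_nhds.2.1 hp).ge

/-- The last time in a closed set. -/
lemma last_time {Z : Type} [TopologicalSpace Z] {P : Set Z} (hP : IsClosed P) {c : ℝ → Z}
    (hc : ContinuousOn c (Icc s t)) (hst : s ≤ t) (h0 : c s ∈ P) (h1 : c t ∉ P) :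
    ∃ τ ∈ Ico s t, c τ ∈ frontier P ∧ ∀ u ∈ Ioc τ t, c u ∉ P := by
  have hK : IsCompact (Icc s t ∩ c ⁻¹' P) :=
    isCompact_Icc.of_isClosed_subset (hc.preimage_isClosed_of_isClosed isClosed_Icc hP)
      inter_subset_left
  obtain ⟨τ, ⟨h2, h3⟩, h4⟩ := hK.exists_isGreatest ⟨s, ⟨le_rfl, hst⟩, h0⟩
  have h5 : τ < t := lt_of_le_of_ne h2.2 fun e => h1 (e ▸ h3)
  have h6 : ∀ u ∈ Ioc τ t, c u ∉ P := fun u hu k =>
    absurd (h4 ⟨⟨h2.1.trans hu.1.le, hu.2⟩, k⟩) (not_le.2 hu.1)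
  refine ⟨τ, ⟨h2.1, h5⟩, ?_, h6⟩
  rw [frontier_eq_closure_inter_closure]
  refine ⟨subset_closure h3, ?_⟩
  have : (𝓝[Ioc τ t] τ).NeBot := left_nhdsWithin_Ioc_neBot h5
  exact mem_closure_of_tendsto ((hc τ h2).mono fun u hu => ⟨h2.1.trans hu.1.le, hu.2⟩)
    (eventually_nhdsWithin_of_forall h6)

/-- P is a future set, and future curves from P do not come back to S. -/
theorem Cross.fut (h : Cross N P S) (hc : IsFutureCurve N 0 I c) (hI : Icc s t ⊆ I) (hst : s < t)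
    (h0 : c s ∈ P) : c t ∈ P \ S := by
  have key : ∀ u ∈ Icc s t, c u ∈ P := fun u hu => by
    by_contra k
    have sub : Icc s u ⊆ I := (Icc_subset_Icc_right hu.2).trans hI
    obtain ⟨τ, h1, h2, h3⟩ := last_time h.closed (hc.1.mono sub) hu.1 h0 k
    have : (𝓝[Ioc τ u] τ).NeBot := left_nhdsWithin_Ioc_neBot h1.2
    have ev : ∀ᶠ v in 𝓝[Ioc τ u] τ, c v ∈ P \ S :=
      (h.fwd I c τ hc (sub (Ico_subset_Icc_self h1)) (h.front h2)).filter_mono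
        (nhdsWithin_mono τ fun v hv => mem_inter (sub ⟨h1.1.trans hv.1.le, hv.2⟩) hv.1)
    obtain ⟨v, v1, v2⟩ := (ev.and self_mem_nhdsWithin).exists
    exact h3 v v2 v1.1
  refine ⟨key t ⟨hst.le, le_rfl⟩, fun k => ?_⟩
  have : (𝓝[Ico s t] t).NeBot := right_nhdsWithin_Ico_neBot hst
  have ev : ∀ᶠ v in 𝓝[Ico s t] t, c v ∉ P :=
    (h.bwd I c t hc (hI ⟨hst.le, le_rfl⟩) k).filter_mono
      (nhdsWithin_mono t fun v hv => mem_inter (hI (Ico_subset_Icc_self hv)) hv.2)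
  obtain ⟨v, v1, v2⟩ := (ev.and self_mem_nhdsWithin).exists
  exact v1 (key v (Ico_subset_Icc_self v2))

theorem Cross.bar (h : Cross N P S)
    (past : ∀ c, IsFutureCurve N 0 (Ioo 0 1) c → (∀ x, ¬ Tendsto c (𝓝[>] 0) (𝓝 x)) →
      ∃ t ∈ Ioo (0 : ℝ) 1, c t ∉ P)
    (enter : ∀ c, IsFutureCurve N 0 (Ioo 0 1) c → (∀ x, ¬ Tendsto c (𝓝[<] 1) (𝓝 x)) →
      ∃ t ∈ Ioo (0 : ℝ) 1, c t ∈ P) : Bar N P :=
  ⟨h.closed, fun _ hc h0 => (h.fut hc Subset.rfl zero_lt_one h0).1, past, enter⟩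

/-- **TF.** S is a Cauchy hypersurface. -/
theorem Cross.cauchy (h : Cross N P S) (hB : Bar N P) (c : ℝ → N.pt)
    (hc : IsFutureCurve N 0 (Ioo 0 1) c)
    (hl : ∀ x, ¬ Tendsto c (𝓝[<] 1) (𝓝 x) ∧ ¬ Tendsto c (𝓝[>] 0) (𝓝 x)) :
    ∃! t, t ∈ Ioo (0 : ℝ) 1 ∧ c t ∈ S := by
  obtain ⟨t0, a0, b0⟩ := hB.past c hc fun x => (hl x).2
  obtain ⟨t1, a1, b1⟩ := hB.enter c hc fun x => (hl x).1
  have sub : ∀ {s t}, s ∈ Ioo (0 : ℝ) 1 → t ∈ Ioo (0 : ℝ) 1 → Icc s t ⊆ Ioo 0 1 :=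
    fun hs ht => Icc_subset_Ioo hs.1 ht.2
  have lt : t0 < t1 := by
    by_contra k
    rcases (not_lt.1 k).eq_or_lt with k | k
    · exact b0 (k ▸ b1)
    · exact b0 (h.fut hc (sub a1 a0) k b1).1
  have ex : ∃ t ∈ Icc t0 t1, c t ∈ frontier P := by
    by_contra! k
    have cn := (isPreconnected_Icc (a := t0) (b := t1)).image c (hc.1.mono (sub a0 a1))
    have := cn.subset_of_closure_inter_subset (u := Pᶜ) h.closed.isOpen_compl
      ⟨c t0, ⟨t0, ⟨le_rfl, lt.le⟩, rfl⟩, b0⟩ (by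
        rintro _ ⟨k1, u, hu, rfl⟩ k2
        exact k u hu (by
          rw [frontier_eq_closure_inter_closure]
          exact ⟨subset_closure k2, k1⟩))
    exact this ⟨t1, ⟨lt.le, le_rfl⟩, rfl⟩ b1
  obtain ⟨t, ht, k⟩ := ex
  refine ⟨t, ⟨sub a0 a1 ht, h.front k⟩, fun u hu => ?_⟩
  rcases lt_trichotomy u t with l | l | l
  · exact absurd (h.front k) (h.fut hc (sub hu.1 (sub a0 a1 ht)) l (h.sub hu.2)).2
  · exact l
  · exact absurd hu.2 (h.fut hc (sub (sub a0 a1 ht) hu.1) l (h.sub (h.front k))).2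

end Vale.Agent.P354XJ
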