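import Vale.Agent.P354V.Main
import Vale.Agent.P354C.Defs

/-!
Local isometries in charts; spacetimes with one chart; pull back of a spacetime by an open
embedding (in particular open parts of a spacetime).
-/

open scoped ContDiff
open Set Filter Topology

namespace Vale.Agent.P354XJ

open Vale.Agent.P354n
open Vale.Agent.P354C (RicZero)

variable {A M N P : Spc} {Reg Reg' Reg'' : (R4 → ℝ) → Set R4 → Prop}

lemma inv_co {e : M.Chart} {p : M.pt} (hp : On e p) : inv e (co e p) = p := (M.toE e).left_inv hp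

lemma co_inv {e : M.Chart} {y : R4} (hy : y ∈ tgt e) : co e (inv e y) = y :=
  (M.toE e).right_inv hy

lemma co_mem {e : M.Chart} {p : M.pt} (hp : On e p) : co e p ∈ tgt e := (M.toE e).map_source hp

lemma inv_mem {e : M.Chart} {y : R4} (hy : y ∈ tgt e) : On e (inv e y) :=
  (M.toE e).map_target hy

lemma isOpen_tgt (e : M.Chart) : IsOpen (tgt e) := (M.toE e).open_target

lemma on_nhds {e : M.Chart} {p : M.pt} (hp : On e p) : ∀ᶠ q in 𝓝 p, On e q :=
  (M.toE e).open_source.mem_nhds hp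

lemma inv_cont {e : M.Chart} {y : R4} (hy : y ∈ tgt e) : ContinuousAt (inv e) y :=
  (M.toE e).continuousAt_symm hy

lemma co_cont {e : M.Chart} {p : M.pt} (hp : On e p) : ContinuousAt (co e) p :=
  (M.toE e).continuousAt hp

/-- The map F from the chart e to the chart e' is smooth, isometric and preserves the time
orientation at the point y. -/
def Iso (e : M.Chart) (e' : N.Chart) (F : R4 → R4) (y : R4) : Prop :=
  ContDiffAt ℝ ∞ F y ∧
    (∀ a b, M.g e y a b = N.g e' (F y) (lineDeriv ℝ F y a) (lineDeriv ℝ F y b)) ∧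
    N.g e' (F y) (lineDeriv ℝ F y (M.X e y)) (N.X e' (F y)) < 0

lemma isIsom_iff {f : M.pt → N.pt} : IsIsom f ↔ ∀ e e', ∀ y ∈ tgt e, On e' (f (inv e y)) →
    Iso e e' (fun y => co e' (f (inv e y))) y :=
  ⟨fun h e e' y hy hy' => h e e' _ rfl y hy hy', fun h e e' _ hF y hy hy' => hF ▸ h e e' y hy hy'⟩

lemma Iso.congr {e : M.Chart} {e' : N.Chart} {F G : R4 → R4} {y : R4} (h : Iso e e' F y)
    (k : G =ᶠ[𝓝 y] F) : Iso e e' G y := by
  refine ⟨h.1.congr_of_eventuallyEq k, fun a b => ?_, ?_⟩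
  · rw [k.lineDeriv_eq, k.lineDeriv_eq, k.eq_of_nhds]
    exact h.2.1 a b
  · rw [k.lineDeriv_eq, k.eq_of_nhds]
    exact h.2.2

lemma Iso.comp (hM : IsSpacetime Reg M) (hN : IsSpacetime Reg' N) (hP : IsSpacetime Reg'' P)
    {e : M.Chart} {e' : N.Chart} {e'' : P.Chart} {F G : R4 → R4} {y : R4} (h : Iso e e' F y)
    (h' : Iso e' e'' G (F y)) (m0 : y ∈ tgt e) (m1 : F y ∈ tgt e') (m2 : G (F y) ∈ tgt e'') :
    Iso e e'' (G ∘ F) y := by
  obtain ⟨a1, a2, a3⟩ := h
  obtain ⟨b1, b2, b3⟩ := h'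
  have da := a1.differentiableAt (by simp)
  have db := b1.differentiableAt (by simp)
  have ld : ∀ a, lineDeriv ℝ (G ∘ F) y a = lineDeriv ℝ G (F y) (lineDeriv ℝ F y a) := fun a => by
    rw [(db.comp y da).lineDeriv_eq_fderiv, fderiv_comp y db da, db.lineDeriv_eq_fderiv,
      da.lineDeriv_eq_fderiv]
    rfl
  refine ⟨b1.comp y a1, fun a b => ?_, ?_⟩
  · rw [ld, ld, a2, b2]
    rfl
  · rw [ld]
    refine hP.up.same_cone e'' m2 (t := lineDeriv ℝ G (F y) (N.X e' (F y))) ?_ ?_ ?_
      (hP.timelike e'' _ m2).le ?_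
    · exact (b2 _ _).symm.trans_lt (hN.timelike e' _ m1)
    · exact ((b2 _ _).symm.trans (a2 _ _).symm).trans_lt (hM.timelike e y m0)
    · exact (b2 _ _).symm.trans_lt a3
    · exact (hP.up.symm e'' m2 _ _).trans_lt b3

/-- The inverse of an isometric open embedding is a local isometry. -/
lemma iso_symm (hA : IsSpacetime Reg A) (hM : IsSpacetime Reg' M) {κ : A.pt → M.pt}
    (hκ : IsOpenEmbedding κ) (hI : IsIsom κ) {e : A.Chart} {e' : M.Chart} {a : A.pt} (h : On e a)
    (h' : On e' (κ a)) : ∃ G : R4 → R4, Iso e' e G (co e' (κ a)) ∧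
      ∀ b, On e b → On e' (κ b) → G (co e' (κ b)) = co e b := by
  have : Nonempty (Up A).pt := ⟨a⟩
  let θ := P354p.theta (M := Up A) (N := Up M) e e' κ hκ
  have k : ∀ b, On e b → On e' (κ b) → θ.symm (co e' (κ b)) = co e b := fun b hb hb' =>
    P354p.theta_symm_apply (M := Up A) (N := Up M) hb (co_mem hb') (inv_co hb').symm
  have hy : co e' (κ a) ∈ θ.target :=
    P354p.mem_theta_target.2 ⟨co_mem h', a, h, (inv_co h').symm⟩
  have sm : ContDiffAt ℝ ∞ θ.symm (co e' (κ a)) :=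
    (P354p.theta_symm_contDiffOn hA.up hM.up hI.up).contDiffAt (θ.open_target.mem_nhds hy)
  have d := sm.differentiableAt (by simp)
  have pl := P354p.theta_pull_symm hA.up hM.up hI.up hy
  refine ⟨θ.symm, ⟨sm, fun u v => ?_, ?_⟩, k⟩
  · rw [d.lineDeriv_eq_fderiv, d.lineDeriv_eq_fderiv]
    exact pl u v
  · rw [d.lineDeriv_eq_fderiv]
    have hx := θ.map_target hy
    have o := P354p.theta_orient hI.up hx
    have p := P354p.theta_pull hI.up hx (fderiv ℝ θ.symm (co e' (κ a)) (M.X e' (co e' (κ a))))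
      (A.X e (θ.symm (co e' (κ a))))
    rw [P354p.theta_fderiv_symm hA.up hM.up hI.up hy, θ.right_inv hy] at p
    rw [θ.right_inv hy] at o
    exact p.trans_lt ((hM.up.symm e' (co_mem h') _ _).trans_lt o)

/-- The transition map of two isometric open embeddings of one spacetime is a local isometry. -/
lemma iso_span (hA : IsSpacetime Reg A) (hM : IsSpacetime Reg' M) (hN : IsSpacetime Reg'' N)
    {κ : A.pt → M.pt} {κ' : A.pt → N.pt} (hκ : IsOpenEmbedding κ) (hκ' : Continuous κ')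
    (hI : IsIsom κ) (hI' : IsIsom κ') {e1 : M.Chart} {e2 : N.Chart} {a : A.pt} (h1 : On e1 (κ a))
    (h2 : On e2 (κ' a)) {F : R4 → R4}
    (hF : ∀ b, On e1 (κ b) → On e2 (κ' b) → F (co e1 (κ b)) = co e2 (κ' b)) :
    Iso e1 e2 F (co e1 (κ a)) := by
  obtain ⟨e, h⟩ := A.cover a
  replace h : On e a := h
  obtain ⟨G, hG, k⟩ := iso_symm hA hM hκ hI h h1
  have i2 := isIsom_iff.1 hI' e e2 _ (co_mem h) (by rwa [inv_co h])
  rw [← k a h h1] at i2
  refine (hG.comp hM hA hN i2 (co_mem h1) (by rw [k a h h1]; exact co_mem h)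
    (by rw [k a h h1, inv_co h]; exact co_mem h2)).congr ?_
  have n1 : ∀ᶠ b in 𝓝 a, On e b ∧ On e1 (κ b) ∧ On e2 (κ' b) :=
    (on_nhds h).and ((hκ.continuous.continuousAt.eventually (on_nhds h1)).and
      (hκ'.continuousAt.eventually (on_nhds h2)))
  have n2 := hκ.isOpenMap.image_mem_nhds n1
  have n3 := (M.toE e1).image_mem_nhds h1 n2
  filter_upwards [n3] with z hz
  obtain ⟨_, ⟨b, ⟨b1, b2, b3⟩, rfl⟩, rfl⟩ := hz
  show F (co e1 (κ b)) = co e2 (κ' (inv e (G (co e1 (κ b)))))
  rw [hF b b2 b3, k b b1 b2, inv_co b1]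

/-! ### Pull back by an open embedding -/

section
variable {Q : Type} [TopologicalSpace Q] {f : Q → N.pt}

/-- The spacetime structure on Q for which the open embedding f is isometric. -/
noncomputable def pl (N : Spc) (f : Q → N.pt) (hf : IsOpenEmbedding f) : Spc where
  pt := Q
  hausdorff := hf.isEmbedding.t2Space
  Chart := N.Chart × Q
  toE c := (@IsOpenEmbedding.toOpenPartialHomeomorph _ _ _ _ f hf ⟨c.2⟩).trans (N.toE c.1)
  cover q := by
    obtain ⟨e, he⟩ := N.cover (f q)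
    exact ⟨(e, q), trivial, he⟩
  g c := N.g c.1
  X c := N.X c.1

variable {hf : IsOpenEmbedding f} {c : (pl N f hf).Chart}

lemma pl_on {q : Q} : On c q ↔ On c.1 (f q) := ⟨fun h => h.2, fun h => ⟨trivial, h⟩⟩

lemma pl_co (q : Q) : co c q = co c.1 (f q) := rfl

lemma pl_tgt {y : R4} : y ∈ tgt c ↔ y ∈ tgt c.1 ∧ inv c.1 y ∈ range f := by
  constructor
  · intro h
    have h1 := pl_on.1 (inv_mem h)
    have h2 : co c.1 (f (inv c y)) = y := co_inv h
    refine ⟨h2 ▸ co_mem h1, inv c y, ?_⟩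
    rw [← inv_co h1, h2]
  · rintro ⟨h1, q, h2⟩
    have h3 : On c q := pl_on.2 (h2 ▸ inv_mem h1)
    have h4 := co_mem h3
    rwa [pl_co, h2, co_inv h1] at h4

lemma pl_inv {y : R4} (h : y ∈ tgt c) : f (inv c y) = inv c.1 y := by
  have h2 : co c.1 (f (inv c y)) = y := co_inv h
  rw [← inv_co (pl_on.1 (inv_mem h)), h2]

lemma pl_iso (hN : IsIsom (M := N) (N := N) id) (e' : N.Chart) {y : R4} (hy : y ∈ tgt c)
    (h : On e' (f (inv c y))) : Iso c.1 e' (fun y => co e' (f (inv c y))) y := by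
  refine (isIsom_iff.1 hN c.1 e' y (pl_tgt.1 hy).1 (by rwa [pl_inv hy] at h)).congr ?_
  filter_upwards [(isOpen_tgt c).mem_nhds hy] with z hz
  rw [pl_inv hz]
  rfl

theorem pl_isom (hN : IsSpacetime Reg N) : IsIsom (M := pl N f hf) (N := N) f :=
  isIsom_iff.2 fun _ e' _ hy h => pl_iso hN.tensor e' hy h

theorem pl_spacetime (hN : IsSpacetime IsSmooth N) : IsSpacetime IsSmooth (pl N f hf) where
  tensor := isIsom_iff.2 fun _ c' _ hy h => pl_iso hN.tensor c'.1 hy (pl_on.1 h)
  signature c y hy := hN.signature c.1 y (pl_tgt.1 hy).1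
  timelike c y hy := hN.timelike c.1 y (pl_tgt.1 hy).1
  continuous c := (hN.continuous c.1).mono fun _ hy => (pl_tgt.1 hy).1
  regular c a b := ContDiffOn.mono (hN.regular c.1 a b) fun _ hy => (pl_tgt.1 hy).1

theorem pl_vacuum (hN : IsVacuum N) : IsVacuum (pl N f hf) := fun c =>
  (hN c.1).imp fun _ h y hy => h y (pl_tgt.1 hy).1

/-- A map into the range of f. -/
theorem isom_to_pl {κ : M.pt → Q} (h : IsIsom (f ∘ κ)) : IsIsom (M := M) (N := pl N f hf) κ :=
  isIsom_iff.2 fun e c y hy h' => isIsom_iff.1 h e c.1 y hy (pl_on.1 h')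

end

/-- The open part O of N. -/
noncomputable abbrev res (N : Spc) (O : Set N.pt) (hO : IsOpen O) : Spc :=
  pl N Subtype.val hO.isOpenEmbedding_subtypeVal

/-! ### One chart -/

/-- The spacetime on the open set D with the metric g and the time orientation T. -/
noncomputable def one (D : Set R4) (hD : IsOpen D) (g : R4 → R4 → R4 → ℝ) (T : R4 → R4) : Spc where
  pt := D
  Chart := D
  toE c := @IsOpenEmbedding.toOpenPartialHomeomorph _ _ _ _ Subtype.val
    hD.isOpenEmbedding_subtypeVal ⟨c⟩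
  cover q := ⟨q, trivial⟩
  g _ := g
  X _ := T

section
variable {D : Set R4} {hD : IsOpen D} {g : R4 → R4 → R4 → ℝ} {T : R4 → R4}
  {c : (one D hD g T).Chart}

lemma one_on (q : D) : On c q := trivial

lemma one_co (q : D) : co c q = q.1 := rfl

lemma one_tgt : tgt c = D := by
  ext y
  constructor
  · intro h
    have h2 : (inv c y : D).1 = y := co_inv h
    exact h2 ▸ (inv c y : D).2
  · intro h
    exact co_mem (one_on (c := c) ⟨y, h⟩)

lemma one_inv {y : R4} (h : y ∈ D) : inv c y = (⟨y, h⟩ : D) := inv_co (one_on (c := c) ⟨y, h⟩)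

/-- A smooth Lorentz metric on D with a time orientation. -/
structure Lor (g : R4 → R4 → R4 → ℝ) (T : R4 → R4) (D : Set R4) : Prop where
  signature : ∀ y ∈ D, ∃ L : R4 → R4, IsLinearMap ℝ L ∧ L.Injective ∧
    ∀ a b, g y a b = mink (L a) (L b)
  timelike : ∀ y ∈ D, g y (T y) (T y) < 0
  continuous : ContinuousOn T D
  smooth : ∀ a b, ContDiffOn ℝ ∞ (fun y => g y a b) D

theorem one_spacetime (h : Lor g T D) : IsSpacetime IsSmooth (one D hD g T) where
  tensor := isIsom_iff.2 fun c c' y hy _ => by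
    have i : Iso c c' id y := ⟨contDiffAt_id, fun a b => by
      rw [differentiableAt_id.lineDeriv_eq_fderiv, differentiableAt_id.lineDeriv_eq_fderiv,
        fderiv_id]
      rfl, by
      rw [differentiableAt_id.lineDeriv_eq_fderiv, fderiv_id]
      exact h.timelike y (one_tgt.subset hy)⟩
    refine i.congr ?_
    filter_upwards [(isOpen_tgt c).mem_nhds hy] with z hz
    exact co_inv hz
  signature _ y hy := h.signature y (one_tgt.subset hy)
  timelike _ y hy := h.timelike y (one_tgt.subset hy)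
  continuous _ := one_tgt ▸ h.continuous
  regular _ a b := by
    rw [one_tgt]
    exact h.smooth a b

theorem one_vacuum {G : R4 → R4 → R4 → R4} (h : ∀ y ∈ D, IsConn g G y ∧ RicZero g G y) :
    IsVacuum (one D hD g T) := fun _ => ⟨G, fun y hy => h y (one_tgt.subset hy)⟩

/-- Future curves of a spacetime with one chart. -/
theorem one_curve {m : ℝ} {I : Set ℝ} {a : ℝ → D} : IsFutureCurve (one D hD g T) m I a ↔
    ∀ t ∈ I, ContDiffWithinAt ℝ 1 (fun s => (a s).1) I t ∧
      g (a t) (derivWithin (fun s => (a s).1) I t) (derivWithin (fun s => (a s).1) I t) < -m ∧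
      g (a t) (derivWithin (fun s => (a s).1) I t) (T (a t)) < 0 := by
  constructor
  · intro h t ht
    obtain ⟨h1, h2⟩ := h.2 t ht (a t) (one_on _)
    exact ⟨h1, h2 _ _ rfl rfl⟩
  · intro h
    refine ⟨IsInducing.subtypeVal.continuousOn_iff.2 fun t ht => (h t ht).1.continuousWithinAt,
      fun t ht e _ => ⟨(h t ht).1, fun y w hy hw => ?_⟩⟩
    rw [hy, hw]
    exact (h t ht).2

/-- Isometric maps to a spacetime with one chart. -/
theorem isom_to_one {κ : M.pt → D} : IsIsom (M := M) (N := one D hD g T) κ ↔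
    ∀ e, ∀ y ∈ tgt e, Iso (N := one D hD g T) e (κ (inv e y)) (fun y => (κ (inv e y)).1) y :=
  ⟨fun h e y hy => isIsom_iff.1 h e _ y hy (one_on _),
    fun h => isIsom_iff.2 fun e _ y hy _ => h e y hy⟩

end

end Vale.Agent.P354XJ
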