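import Vale.Agent.P354XJ.Lim
import Vale.Agent.P354XJ.Tf
import Vale.Agent.P354XE.Iface

/-!
The pieces LIM and PCOL of block E12.
-/

open scoped ContDiff
open Set Filter Topology

namespace Vale.Agent.P354XJ

open Vale.Agent.P354n
open Vale.Agent.P354I (X)
open Vale.Agent.P354XE (Tw Ft Fc LIM PCOL pt xs)

section
variable {N : Spc} {e : N.Chart} {τ : R4 → ℝ} {K : Set R4} {z w : ℝ → R4} {s t : ℝ}

/-- The limit lemma for differentiable curves in a chart. -/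
theorem lim_core (hN : IsSpacetime IsSmooth N) (hK : IsCompact K) (hKe : K ⊆ tgt e)
    (h : ∀ y ∈ K, Tm e τ y) (hst : s < t)
    (hz : ∀ u ∈ Ioo s t, z u ∈ K ∧ HasDerivAt z (w u) u ∧ N.g e (z u) (w u) (w u) ≤ 0 ∧
      N.g e (z u) (w u) (N.X e (z u)) ≤ 0) :
    (∃ x ∈ K, Tendsto z (𝓝[<] t) (𝓝 x)) ∧ ∃ x ∈ K, Tendsto z (𝓝[>] s) (𝓝 x) := by
  obtain ⟨C, C0, hC⟩ := cb_compact hN hK hKe h
  have d := fun u hu v hv k => dist_le_of_dom (W := z) (W' := w)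
    (f := fun u => C * τ (z u)) (f' := fun u => C * fderiv ℝ τ (z u) (w u))
    (fun u hu => ⟨(hz u hu).2.1, (((h _ (hz u hu).1).1.differentiableAt
      one_ne_zero).hasFDerivAt.comp_hasDerivAt u (hz u hu).2.1).const_mul C,
      hC _ (hz u hu).1 _ (hz u hu).2.2.1 (hz u hu).2.2.2⟩) (u := u) (v := v) hu hv k
  have mo : MonotoneOn (fun u => C * τ (z u)) (Ioo s t) := fun u hu v hv k =>
    sub_nonneg.1 ((norm_nonneg _).trans (d u hu v hv k))
  have ct : ContinuousOn (fun y => C * τ y) K := fun y hy =>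
    (continuousAt_const.mul (h y hy).1.continuousAt).continuousWithinAt
  have sub : (fun u => C * τ (z u)) '' Ioo s t ⊆ (fun y => C * τ y) '' K := by
    rintro _ ⟨u, hu, rfl⟩
    exact ⟨_, (hz u hu).1, rfl⟩
  have fin : ∀ (l : Filter ℝ) [l.NeBot] (L : ℝ), Ioo s t ∈ l →
      Tendsto (fun u => C * τ (z u)) l (𝓝 L) → ∃ x ∈ K, Tendsto z l (𝓝 x) := fun l _ L hl hL => by
    obtain ⟨x, hx⟩ := conv_of_dist d hl hL
    exact ⟨x, hK.isClosed.mem_of_tendsto hx (mem_of_superset hl fun u hu => (hz u hu).1), hx⟩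
  exact ⟨fin _ _ (Ioo_mem_nhdsLT hst) (mo.tendsto_nhdsWithin_Ioo_left (nonempty_Ioo.2 hst)
      ((hK.image_of_continuousOn ct).bddAbove.mono sub)),
    fin _ _ (Ioo_mem_nhdsGT hst) (mo.tendsto_nhdsWithin_Ioo_right (nonempty_Ioo.2 hst)
      ((hK.image_of_continuousOn ct).bddBelow.mono sub))⟩

end

variable {g : Tw} {D : Set R4} {Xf : R4 → R4} {f : R4 → ℝ} {p : R4}

lemma lor_of (h : P354XE.Lor g D Xf) : Lor g Xf D := ⟨h.sig, h.tl, h.cont, h.met.smooth⟩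

/-- The spacetime of a Lorentz metric on an open set. -/
theorem one_sp (h : P354XE.Lor g D Xf) : IsSpacetime IsSmooth (one D h.isOpen g Xf) :=
  one_spacetime (lor_of h)

theorem one_vac (h : P354XE.Lor g D Xf) : IsVacuum (one D h.isOpen g Xf) :=
  fun _ => h.vac.imp fun _ k y hy => k y (one_tgt.subset hy)

lemma bilin_of (h : P354XE.Lor g D Xf) (hp : p ∈ D) : P354.Bilin (g p) :=
  (one_sp h).up.bilin (⟨p, hp⟩ : D)
    ((one_tgt (hD := h.isOpen) (g := g) (T := Xf) (c := ⟨p, hp⟩)).symm.subset hp)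

lemma tm_of (h : P354XE.Lor g D Xf) (c : (one D h.isOpen g Xf).Chart) (hp : p ∈ D)
    (k : P354XE.Tm g Xf f p) : Tm c f p :=
  tm_of_levels (one_sp h) (one_tgt.symm.subset hp) k.1 k.2.1 k.2.2

/-- Time functions increase along future causal vectors. -/
theorem tm_pos (h : P354XE.Lor g D Xf) (hp : p ∈ D) (k : P354XE.Tm g Xf f p) {w : R4} (w0 : w ≠ 0)
    (h1 : g p w w ≤ 0) (h2 : g p w (Xf p) ≤ 0) : 0 < fderiv ℝ f p w :=
  (tm_of h ⟨p, hp⟩ hp k).2 w w0 h1 h2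

/-- Near a point with a time function, causal vectors are bounded by their time component. -/
theorem tm_bound (h : P354XE.Lor g D Xf) (hp : p ∈ D) (k : P354XE.Tm g Xf f p) :
    ∃ C > 0, ∀ᶠ x in 𝓝 p, ∀ w, g x w w ≤ 0 → g x w (Xf x) ≤ 0 → ‖w‖ ≤ C * fderiv ℝ f x w :=
  (tm_of h ⟨p, hp⟩ hp k).cb (one_sp h) (one_tgt.symm.subset hp)

/-- Being a time function is an open condition. -/
theorem tm_ev (h : P354XE.Lor g D Xf) (hp : p ∈ D) (k : P354XE.Tm g Xf f p) :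
    ∀ᶠ x in 𝓝 p, P354XE.Tm g Xf f x := by
  have hN := one_sp h
  filter_upwards [(tm_of h ⟨p, hp⟩ hp k).ev hN (one_tgt.symm.subset hp), h.isOpen.mem_nhds hp]
    with x h1 h2
  have B := bilin_of h h2
  have z0 : g x 0 0 = 0 := by simpa using B.smul_left 0 0 0
  refine ⟨h1.1, h1.2 _ (fun k0 => ?_) (h.tl x h2).le (h.tl x h2).le, fun v v0 k0 => ?_⟩
  · have := h.tl x h2
    rw [show Xf x = 0 from k0, z0] at this
    exact lt_irrefl _ this
  · by_contra! k1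
    rcases le_total (g x v (Xf x)) 0 with k2 | k2
    · exact (h1.2 v v0 k1 k2).ne' k0
    · have e1 : g x (-v) (-v) = g x v v := by
        rw [← neg_one_smul ℝ v, B.smul_left, B.smul_right]
        ring
      have e2 : g x (-v) (Xf x) = -g x v (Xf x) := by
        rw [← neg_one_smul ℝ v, B.smul_left]
        ring
      have := h1.2 (-v) (neg_ne_zero.2 v0) (e1.trans_le k1) (e2.trans_le (neg_nonpos.2 k2))
      rw [map_neg, k0, neg_zero] at this
      exact lt_irrefl _ this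

/-- **LIM.** -/
theorem lim_main : LIM := by
  intro g D Xf K f z h hK hD hf hz
  have m : (1 / 2 : ℝ) ∈ Ioo (0 : ℝ) 1 := by norm_num
  have core : ∀ s t, s < t → Ioo s t ⊆ Ioo 0 1 → (∀ u ∈ Ioo s t, z u ∈ K) →
      (∃ x ∈ K, Tendsto z (𝓝[<] t) (𝓝 x)) ∧ ∃ x ∈ K, Tendsto z (𝓝[>] s) (𝓝 x) :=
    fun s t hst sub hin => lim_core (e := (⟨_, (hz _ m).1⟩ : D)) (w := _root_.deriv z) (one_sp h) hK
      (hD.trans one_tgt.symm.subset) (fun y hy => tm_of h _ (hD hy) (hf y hy)) hst fun u hu =>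
        ⟨hin u hu, (hz u (sub hu)).2.1.hasDerivAt, (hz u (sub hu)).2.2.1.le,
          (hz u (sub hu)).2.2.2.le⟩
  constructor
  · intro k
    obtain ⟨l, hl, k⟩ := mem_nhdsLT_iff_exists_Ioo_subset.1 k
    exact (core (max l 0) 1 (max_lt hl zero_lt_one) (Ioo_subset_Ioo_left (le_max_right _ _))
      fun u hu => k (Ioo_subset_Ioo_left (le_max_left _ _) hu)).1
  · intro k
    obtain ⟨l, hl, k⟩ := mem_nhdsGT_iff_exists_Ioo_subset.1 k
    exact (core 0 (min l 1) (lt_min hl zero_lt_one) (Ioo_subset_Ioo_right (min_le_right _ _))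
      fun u hu => k (Ioo_subset_Ioo_right (min_le_left _ _) hu)).2

lemma xs_cont : Continuous xs := by
  unfold xs
  fun_prop

lemma xs_pt (t : ℝ) (y : X) : xs (pt t y) = y := by
  ext i
  fin_cases i <;> rfl

/-- **PCOL.** -/
theorem pcol : PCOL := by
  intro g D Xf h hT
  have ex : ∀ y : X, y ≠ 0 → ∃ C r : ℝ, 1 ≤ C ∧ 0 < r ∧ ∀ x ∈ Metric.ball (pt 0 y) r, x ∈ D ∧
      xs x ≠ 0 ∧ P354XE.Tm g Xf (fun p => p.1) x ∧
      ∀ w, g x w w ≤ 0 → g x w (Xf x) ≤ 0 → ‖w‖ ≤ C * w.1 := fun y hy => by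
    obtain ⟨C, C0, hC⟩ := tm_bound h (hT y hy).1 (hT y hy).2
    have k1 : ∀ᶠ x in 𝓝 (pt 0 y), xs x ≠ 0 :=
      xs_cont.continuousAt.eventually_ne (by rwa [xs_pt])
    obtain ⟨r, r0, hr⟩ := Metric.eventually_nhds_iff_ball.1 ((hC.and k1).and
      ((tm_ev h (hT y hy).1 (hT y hy).2).and (h.isOpen.mem_nhds (hT y hy).1)))
    refine ⟨C + 1, r, by linarith, r0, fun x hx => ?_⟩
    obtain ⟨⟨a1, a2⟩, a3, a4⟩ := hr x hx
    refine ⟨a4, a2, a3, fun w b1 b2 => ?_⟩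
    have k2 := a1 w b1 b2
    rw [show fderiv ℝ (fun p : R4 => p.1) x w = w.1 by rw [fderiv_fst]; rfl] at k2
    have k3 : 0 ≤ w.1 := by
      by_contra! n
      exact absurd ((norm_nonneg _).trans k2) (not_le.2 (mul_neg_of_pos_of_neg C0 n))
    linarith
  choose! C r C1 r0 H using ex
  have ball : ∀ y ≠ 0, ∀ x : R4, C y * |x.1| + ‖x.2 - (pt 0 y).2‖ < r y →
      x ∈ Metric.ball (pt 0 y) (r y) := fun y hy x hx => by
    have k1 : |x.1| ≤ C y * |x.1| := le_mul_of_one_le_left (abs_nonneg _) (C1 y hy)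
    rw [mem_ball_iff_norm, Prod.norm_def]
    refine max_lt ?_ ?_
    · show ‖x.1 - 0‖ < r y
      rw [sub_zero, Real.norm_eq_abs]
      linarith [norm_nonneg (x.2 - (pt 0 y).2)]
    · show ‖x.2 - (pt 0 y).2‖ < r y
      linarith [abs_nonneg x.1]
  refine ⟨{x | ∃ y ≠ 0, C y * |x.1| + ‖x.2 - (pt 0 y).2‖ < r y},
    fun x ⟨y, hy, hx⟩ => (H y hy x (ball y hy x hx)).1, ?_, fun y hy => ⟨y, hy, ?_⟩,
    fun x ⟨y, hy, hx⟩ => ⟨(H y hy x (ball y hy x hx)).2.1, fun c hc => ⟨y, hy, ?_⟩⟩,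
    fun z hz => ?_⟩
  · simp only [ofPred_exists, ofPred_and]
    refine isOpen_iUnion fun y => IsOpen.inter isOpen_const (isOpen_lt (by fun_prop) ?_)
    exact continuous_const
  · simpa [pt] using r0 y hy
  · refine lt_of_le_of_lt (add_le_add (mul_le_mul_of_nonneg_left ?_ (by linarith [C1 y hy]))
      le_rfl) hx
    rw [abs_mul, abs_of_nonneg hc.1]
    exact mul_le_of_le_one_left (abs_nonneg _) hc.2
  have m : (1 / 2 : ℝ) ∈ Ioo (0 : ℝ) 1 := by norm_num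
  obtain ⟨⟨y, hy, h1⟩, h2⟩ := (hz _ m).1
  set a := C y * |(z (1 / 2)).1| + ‖(z (1 / 2)).2 - (pt 0 y).2‖
  let K : Set R4 := {x | x.1 ≤ 0 ∧ C y * |x.1| + ‖x.2 - (pt 0 y).2‖ ≤ a}
  have Kb : ∀ x ∈ K, x ∈ Metric.ball (pt 0 y) (r y) := fun x hx => ball y hy x (hx.2.trans_lt h1)
  have Kc : IsClosed K := (isClosed_le continuous_fst continuous_const).and
    (isClosed_le (by fun_prop) continuous_const)
  have hK : IsCompact K := (isCompact_closedBall (pt 0 y) (r y)).of_isClosed_subset Kc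
    fun x hx => Metric.ball_subset_closedBall (Kb x hx)
  have stay : ∀ u ∈ Ico (1 / 2 : ℝ) 1, z u ∈ K := fun u hu => by
    by_contra k
    have sub : Icc (1 / 2 : ℝ) u ⊆ Ioo 0 1 := Icc_subset_Ioo m.1 hu.2
    obtain ⟨τ, t1, t2, t3⟩ := last_time Kc
      (fun v hv => (hz v (sub hv)).2.1.continuousAt.continuousWithinAt) hu.1 ⟨h2.le, le_rfl⟩ k
    have t4 : z τ ∈ K := Kc.frontier_subset t2
    have t5 := sub (Ico_subset_Icc_self t1)
    obtain ⟨l, l', t6, t7⟩ := mem_nhds_iff_exists_Ioo_subset.1 (inter_mem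
      ((hz τ t5).2.1.continuousAt (Metric.isOpen_ball.mem_nhds (Kb _ t4))) (Ioo_mem_nhds t5.1 t5.2))
    obtain ⟨v, v1, v2⟩ := exists_between (lt_min t1.2 t6.2)
    have v3 : v ∈ Ioo l l' := ⟨t6.1.trans v1, v2.trans_le (min_le_right _ _)⟩
    have d := dist_le_of_dom (W := z) (W' := _root_.deriv z) (f := fun u => C y * (z u).1)
      (f' := fun u => C y * (_root_.deriv z u).1) (fun u hu =>
        ⟨(hz u (t7 hu).2).2.1.hasDerivAt, HasDerivAt.const_mul (C y)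
          (d := fun u => (z u).1) (hz u (t7 hu).2).2.1.hasDerivAt.fst,
          (H y hy _ (t7 hu).1).2.2.2 _ (hz u (t7 hu).2).2.2.1.le (hz u (t7 hu).2).2.2.2.le⟩)
      t6 v3 v1.le
    have n1 : (z v).1 < 0 := (hz v (t7 v3).2).1.2
    refine t3 v ⟨v1, (v2.trans_le (min_le_left _ _)).le⟩ ⟨n1.le, le_trans ?_ t4.2⟩
    have n2 : ‖(z v).2 - (pt 0 y).2‖ ≤ ‖z v - z τ‖ + ‖(z τ).2 - (pt 0 y).2‖ :=
      (norm_sub_le_norm_sub_add_norm_sub _ (z τ).2 _).trans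
        (add_le_add (norm_snd_le (z v - z τ)) le_rfl)
    rw [abs_of_neg n1, abs_of_nonpos t4.1]
    linarith
  obtain ⟨x, hx, k⟩ := (lim_main g D Xf K (fun p => p.1) z h hK (fun x hx => (H y hy x (Kb x hx)).1)
    (fun x hx => (H y hy x (Kb x hx)).2.2.1) fun t ht => by
      obtain ⟨⟨⟨y', hy', k1⟩, -⟩, k2⟩ := hz t ht
      exact ⟨(H y' hy' _ (ball y' hy' _ k1)).1, k2⟩).1
    (mem_of_superset (Ioo_mem_nhdsLT m.2) fun u hu => stay u (Ioo_subset_Ico_self hu))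
  exact ⟨x, ⟨y, hy, hx.2.trans_lt h1⟩, k⟩

end Vale.Agent.P354XJ
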