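import Vale.Agent.P354XJ.Iso
import Vale.Agent.P354I.Defs

/-!
GL2: two spacetimes glued along a common open part. TF: a time function gives the Cauchy
property.
-/

open scoped ContDiff
open Set Filter Topology

namespace Vale.Agent.P354XJ

open Vale.Agent.P354n

variable {A N1 N2 : Spc} {κ1 : A.pt → N1.pt} {κ2 : A.pt → N2.pt}

/-- A is a common open part of N1 and N2, and the identification has a closed graph. -/
structure Span (κ1 : A.pt → N1.pt) (κ2 : A.pt → N2.pt) : Prop where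
  sA : IsSpacetime IsSmooth A
  s1 : IsSpacetime IsSmooth N1
  s2 : IsSpacetime IsSmooth N2
  e1 : IsOpenEmbedding κ1
  e2 : IsOpenEmbedding κ2
  i1 : IsIsom κ1
  i2 : IsIsom κ2
  closed : IsClosed (range fun a => (κ1 a, κ2 a))

/-- N is the union of N1 and N2 along A. -/
structure Glued (κ1 : A.pt → N1.pt) (κ2 : A.pt → N2.pt) (N : Spc) (ι1 : N1.pt → N.pt)
    (ι2 : N2.pt → N.pt) : Prop where
  s : IsSpacetime IsSmooth N
  e1 : IsOpenEmbedding ι1
  e2 : IsOpenEmbedding ι2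
  i1 : IsIsom ι1
  i2 : IsIsom ι2
  cover : ∀ p, p ∈ range ι1 ∨ p ∈ range ι2
  eq : ∀ x y, ι1 x = ι2 y ↔ ∃ a, κ1 a = x ∧ κ2 a = y
  vacuum : IsVacuum N1 → IsVacuum N2 → IsVacuum N
  chart1 : ∀ e : N1.Chart, ∃ e' : N.Chart, N.g e' = N1.g e ∧ N.X e' = N1.X e ∧ tgt e' = tgt e ∧
    ∀ x, (On e' (ι1 x) ↔ On e x) ∧ co e' (ι1 x) = co e x
  chart2 : ∀ e : N2.Chart, ∃ e' : N.Chart, N.g e' = N2.g e ∧ N.X e' = N2.X e ∧ tgt e' = tgt e ∧
    ∀ x, (On e' (ι2 x) ↔ On e x) ∧ co e' (ι2 x) = co e x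

/-- The identification. -/
def rel (κ1 : A.pt → N1.pt) (κ2 : A.pt → N2.pt) : N1.pt ⊕ N2.pt → N1.pt ⊕ N2.pt → Prop
  | .inl x, .inl x' => x = x'
  | .inl x, .inr y => ∃ a, κ1 a = x ∧ κ2 a = y
  | .inr y, .inl x => ∃ a, κ1 a = x ∧ κ2 a = y
  | .inr y, .inr y' => y = y'

namespace Span

variable (h : Span κ1 κ2)
include h

/-- The equivalence relation. -/
def st : Setoid (N1.pt ⊕ N2.pt) where
  r := rel κ1 κ2
  iseqv :=
    { refl := by rintro (x | x) <;> exact rfl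
      symm := by
        rintro (x | x) (y | y) k
        exacts [Eq.symm k, k, k, Eq.symm k]
      trans := by
        rintro (x | x) (y | y) (z | z) k l
        · exact Eq.trans k l
        · exact (show x = y from k) ▸ l
        · obtain ⟨a, rfl, a2⟩ := k
          obtain ⟨b, rfl, b2⟩ := l
          exact congrArg κ1 (h.e2.injective (a2.trans b2.symm))
        · exact (show y = z from l) ▸ k
        · exact (show y = z from l) ▸ k
        · obtain ⟨a, a2, rfl⟩ := k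
          obtain ⟨b, b2, rfl⟩ := l
          exact congrArg κ2 (h.e1.injective (a2.trans b2.symm))
        · exact (show x = y from k) ▸ l
        · exact Eq.trans k l }

/-- The points. -/
def Q : Type := Quotient h.st

instance : TopologicalSpace h.Q := inferInstanceAs (TopologicalSpace (Quotient h.st))

/-- The embeddings. -/
def j1 (x : N1.pt) : h.Q := Quotient.mk h.st (.inl x)
def j2 (x : N2.pt) : h.Q := Quotient.mk h.st (.inr x)

lemma eq11 {x y : N1.pt} : h.j1 x = h.j1 y ↔ x = y := Quotient.eq (r := h.st)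
lemma eq22 {x y : N2.pt} : h.j2 x = h.j2 y ↔ x = y := Quotient.eq (r := h.st)
lemma eq12 {x : N1.pt} {y : N2.pt} : h.j1 x = h.j2 y ↔ ∃ a, κ1 a = x ∧ κ2 a = y :=
  Quotient.eq (r := h.st)

lemma open_iff {S : Set h.Q} : IsOpen S ↔ IsOpen (h.j1 ⁻¹' S) ∧ IsOpen (h.j2 ⁻¹' S) :=
  (isQuotientMap_quot_mk (r := h.st)).isOpen_preimage.symm.trans isOpen_sum_iff

lemma emb1 : IsOpenEmbedding h.j1 := by
  have inj : Function.Injective h.j1 := fun _ _ k => h.eq11.1 k
  refine .of_continuous_injective_isOpenMap (continuous_def.2 fun S hS => (h.open_iff.1 hS).1) inj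
    fun U hU => h.open_iff.2 ⟨by rwa [preimage_image_eq _ inj], ?_⟩
  have : h.j2 ⁻¹' (h.j1 '' U) = κ2 '' (κ1 ⁻¹' U) := by
    ext y
    constructor
    · rintro ⟨x, hx, k⟩
      obtain ⟨a, rfl, rfl⟩ := h.eq12.1 k
      exact ⟨a, hx, rfl⟩
    · rintro ⟨a, ha, rfl⟩
      exact ⟨κ1 a, ha, h.eq12.2 ⟨a, rfl, rfl⟩⟩
  rw [this]
  exact h.e2.isOpenMap _ (hU.preimage h.e1.continuous)

lemma emb2 : IsOpenEmbedding h.j2 := by
  have inj : Function.Injective h.j2 := fun _ _ k => h.eq22.1 k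
  refine .of_continuous_injective_isOpenMap (continuous_def.2 fun S hS => (h.open_iff.1 hS).2) inj
    fun U hU => h.open_iff.2 ⟨?_, by rwa [preimage_image_eq _ inj]⟩
  have : h.j1 ⁻¹' (h.j2 '' U) = κ1 '' (κ2 ⁻¹' U) := by
    ext y
    constructor
    · rintro ⟨x, hx, k⟩
      obtain ⟨a, rfl, rfl⟩ := h.eq12.1 k.symm
      exact ⟨a, hx, rfl⟩
    · rintro ⟨a, ha, rfl⟩
      exact ⟨κ2 a, ha, (h.eq12.2 ⟨a, rfl, rfl⟩).symm⟩
  rw [this]
  exact h.e1.isOpenMap _ (hU.preimage h.e2.continuous)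

lemma cover (p : h.Q) : p ∈ range h.j1 ∨ p ∈ range h.j2 := by
  obtain ⟨x | x, rfl⟩ := Quotient.exists_rep p
  exacts [Or.inl ⟨x, rfl⟩, Or.inr ⟨x, rfl⟩]

lemma sep {x : N1.pt} {y : N2.pt} (k : h.j1 x ≠ h.j2 y) :
    ∃ u v : Set h.Q, IsOpen u ∧ IsOpen v ∧ h.j1 x ∈ u ∧ h.j2 y ∈ v ∧ Disjoint u v := by
  have k1 : (x, y) ∈ (range fun a => (κ1 a, κ2 a))ᶜ := fun ⟨a, ha⟩ =>
    k (h.eq12.2 ⟨a, congrArg Prod.fst ha, congrArg Prod.snd ha⟩)
  obtain ⟨u, v, hu, hv, xu, yv, huv⟩ := isOpen_prod_iff.1 h.closed.isOpen_compl x y k1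
  refine ⟨_, _, h.emb1.isOpenMap u hu, h.emb2.isOpenMap v hv, ⟨x, xu, rfl⟩, ⟨y, yv, rfl⟩,
    disjoint_left.2 ?_⟩
  rintro _ ⟨x', hx', rfl⟩ ⟨y', hy', k2⟩
  obtain ⟨a, rfl, rfl⟩ := h.eq12.1 k2.symm
  exact huv (mk_mem_prod hx' hy') ⟨a, rfl⟩

lemma t2 : T2Space h.Q := by
  refine ⟨fun p q k => ?_⟩
  rcases h.cover p with ⟨x, rfl⟩ | ⟨x, rfl⟩ <;> rcases h.cover q with ⟨y, rfl⟩ | ⟨y, rfl⟩
  · exact separated_by_isOpenEmbedding h.emb1 fun e => k (e ▸ rfl)
  · exact h.sep k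
  · obtain ⟨u, v, a, b, c, d, e⟩ := h.sep k.symm
    exact ⟨v, u, b, a, d, c, e.symm⟩
  · exact separated_by_isOpenEmbedding h.emb2 fun e => k (e ▸ rfl)

/-- The glued spacetime. -/
noncomputable def sp : Spc where
  pt := h.Q
  hausdorff := h.t2
  Chart := N1.Chart ⊕ N2.Chart
  toE := Sum.elim (fun e => (N1.toE e).lift_openEmbedding h.emb1)
    fun e => (N2.toE e).lift_openEmbedding h.emb2
  cover p := by
    rcases h.cover p with ⟨x, rfl⟩ | ⟨x, rfl⟩
    · obtain ⟨e, he⟩ := N1.cover x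
      exact ⟨.inl e, x, he, rfl⟩
    · obtain ⟨e, he⟩ := N2.cover x
      exact ⟨.inr e, x, he, rfl⟩
  g := Sum.elim N1.g N2.g
  X := Sum.elim N1.X N2.X

lemma co1 (e : N1.Chart) (x : N1.pt) : co (M := h.sp) (.inl e) (h.j1 x) = co e x :=
  (N1.toE e).lift_openEmbedding_apply h.emb1

lemma co2 (e : N2.Chart) (x : N2.pt) : co (M := h.sp) (.inr e) (h.j2 x) = co e x :=
  (N2.toE e).lift_openEmbedding_apply h.emb2

lemma on1 {e : N1.Chart} {x : N1.pt} : On (M := h.sp) (.inl e) (h.j1 x) ↔ On e x :=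
  h.emb1.injective.mem_set_image

lemma on2 {e : N2.Chart} {x : N2.pt} : On (M := h.sp) (.inr e) (h.j2 x) ↔ On e x :=
  h.emb2.injective.mem_set_image

lemma isom1 : IsIsom (N := h.sp) h.j1 := by
  refine isIsom_iff.2 fun e e' y hy k => ?_
  rcases e' with e' | e'
  · refine (isIsom_iff.1 h.s1.tensor e e' y hy (h.on1.1 k)).congr (Eventually.of_forall fun z => ?_)
    exact h.co1 e' _
  · obtain ⟨x, hx, k1⟩ := k
    obtain ⟨a, a1, rfl⟩ := h.eq12.1 k1.symm
    have := iso_span h.sA h.s1 h.s2 h.e1 h.e2.continuous h.i1 h.i2 (e1 := e) (e2 := e')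
      (a1 ▸ inv_mem hy) hx (F := fun y => co (M := h.sp) (.inr e') (h.j1 (inv e y)))
      fun b b1 _ => by rw [inv_co b1, h.eq12.2 ⟨b, rfl, rfl⟩, h.co2]
    rw [a1, co_inv hy] at this
    exact this

lemma isom2 : IsIsom (N := h.sp) h.j2 := by
  refine isIsom_iff.2 fun e e' y hy k => ?_
  rcases e' with e' | e'
  · obtain ⟨x, hx, k1⟩ := k
    obtain ⟨a, rfl, a1⟩ := h.eq12.1 k1
    have := iso_span h.sA h.s2 h.s1 h.e2 h.e1.continuous h.i2 h.i1 (e1 := e) (e2 := e')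
      (a1 ▸ inv_mem hy) hx (F := fun y => co (M := h.sp) (.inl e') (h.j2 (inv e y)))
      fun b b1 _ => by rw [inv_co b1, ← h.eq12.2 ⟨b, rfl, rfl⟩, h.co1]
    rw [a1, co_inv hy] at this
    exact this
  · refine (isIsom_iff.1 h.s2.tensor e e' y hy (h.on2.1 k)).congr (Eventually.of_forall fun z => ?_)
    exact h.co2 e' _

lemma spacetime : IsSpacetime IsSmooth h.sp where
  tensor := isIsom_iff.2 fun e e' y hy k => by
    rcases e with e | e
    · exact isIsom_iff.1 h.isom1 e e' y hy k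
    · exact isIsom_iff.1 h.isom2 e e' y hy k
  signature := by
    rintro (e | e)
    exacts [h.s1.signature e, h.s2.signature e]
  timelike := by
    rintro (e | e)
    exacts [h.s1.timelike e, h.s2.timelike e]
  continuous := by
    rintro (e | e)
    exacts [h.s1.continuous e, h.s2.continuous e]
  regular := by
    rintro (e | e)
    exacts [h.s1.regular e, h.s2.regular e]

end Span

/-- **GL2.** -/
theorem gl2 (h : Span κ1 κ2) : ∃ N ι1 ι2, Glued κ1 κ2 N ι1 ι2 :=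
  ⟨h.sp, h.j1, h.j2, h.spacetime, h.emb1, h.emb2, h.isom1, h.isom2, h.cover, fun _ _ => h.eq12,
    fun v1 v2 e => by
      rcases e with e | e
      exacts [v1 e, v2 e],
    fun e => ⟨.inl e, rfl, rfl, rfl, fun x => ⟨h.on1, h.co1 e x⟩⟩,
    fun e => ⟨.inr e, rfl, rfl, rfl, fun x => ⟨h.on2, h.co2 e x⟩⟩⟩

namespace Glued

variable {N : Spc} {ι1 : N1.pt → N.pt} {ι2 : N2.pt → N.pt} (h : Glued κ1 κ2 N ι1 ι2)
include h

lemma comm (a : A.pt) : ι1 (κ1 a) = ι2 (κ2 a) := (h.eq _ _).2 ⟨a, rfl, rfl⟩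

lemma union : range ι1 ∪ range ι2 = univ := eq_univ_of_forall h.cover

lemma mem2 {x : N1.pt} : ι1 x ∈ range ι2 ↔ x ∈ range κ1 :=
  ⟨fun ⟨y, k⟩ => ((h.eq x y).1 k.symm).imp fun _ k => k.1,
    fun ⟨a, k⟩ => ⟨κ2 a, k ▸ (h.comm a).symm⟩⟩

lemma mem1 {y : N2.pt} : ι2 y ∈ range ι1 ↔ y ∈ range κ2 :=
  ⟨fun ⟨x, k⟩ => ((h.eq x y).1 k).imp fun _ k => k.2, fun ⟨a, k⟩ => ⟨κ1 a, k ▸ h.comm a⟩⟩

theorem connected [ConnectedSpace N1.pt] [ConnectedSpace N2.pt] [Nonempty A.pt] :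
    ConnectedSpace N.pt := by
  obtain ⟨a⟩ := ‹Nonempty A.pt›
  rw [connectedSpace_iff_univ, ← h.union]
  exact (isConnected_range h.e1.continuous).union ⟨_, ⟨κ1 a, rfl⟩, κ2 a, (h.comm a).symm⟩
    (isConnected_range h.e2.continuous)

theorem countable [SecondCountableTopology N1.pt] [SecondCountableTopology N2.pt] :
    SecondCountableTopology N.pt := by
  have c1 : SecondCountableTopology (range ι1) :=
    h.e1.isEmbedding.toHomeomorph.symm.secondCountableTopology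
  have c2 : SecondCountableTopology (range ι2) :=
    h.e2.isEmbedding.toHomeomorph.symm.secondCountableTopology
  have c3 : ∀ b : Bool, SecondCountableTopology (cond b (range ι1) (range ι2) : Set N.pt) := by
    rintro (_ | _)
    exacts [c2, c1]
  refine TopologicalSpace.secondCountableTopology_of_countable_cover
    (U := fun b : Bool => cond b (range ι1) (range ι2)) ?_ ?_
  · rintro (_ | _)
    exacts [h.e2.isOpen_range, h.e1.isOpen_range]
  · rw [← h.union, union_eq_iUnion]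

/-- A continuous function on N from functions on the two parts. -/
theorem exists_fun {Z : Type} [TopologicalSpace Z] {f1 : N1.pt → Z} {f2 : N2.pt → Z}
    (c1 : Continuous f1) (c2 : Continuous f2) (k : ∀ a, f1 (κ1 a) = f2 (κ2 a)) :
    ∃ f : N.pt → Z, Continuous f ∧ (∀ x, f (ι1 x) = f1 x) ∧ ∀ y, f (ι2 y) = f2 y := by
  have ex : ∀ p, ∃ z, (∀ x, ι1 x = p → z = f1 x) ∧ ∀ y, ι2 y = p → z = f2 y := fun p => by
    rcases h.cover p with ⟨x, rfl⟩ | ⟨y, rfl⟩
    · refine ⟨f1 x, fun x' e => by rw [h.e1.injective e], fun y e => ?_⟩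
      obtain ⟨a, rfl, rfl⟩ := (h.eq x y).1 e.symm
      exact k a
    · refine ⟨f2 y, fun x e => ?_, fun y' e => by rw [h.e2.injective e]⟩
      obtain ⟨a, rfl, rfl⟩ := (h.eq x y).1 e
      exact (k a).symm
  choose f a1 a2 using ex
  refine ⟨f, continuous_iff_continuousAt.2 fun p => ?_, fun x => a1 _ x rfl, fun y => a2 _ y rfl⟩
  rcases h.cover p with ⟨x, rfl⟩ | ⟨y, rfl⟩
  · refine h.e1.continuousAt_iff.1 ?_
    rw [show f ∘ ι1 = f1 from funext fun x => a1 _ x rfl]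
    exact c1.continuousAt
  · refine h.e2.continuousAt_iff.1 ?_
    rw [show f ∘ ι2 = f2 from funext fun y => a2 _ y rfl]
    exact c2.continuousAt

end Glued

end Vale.Agent.P354XJ
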