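import Vale.Agent.P354XJ.Col
import Vale.Agent.P354XA.Fr
import Vale.Agent.P354XA.Pac

/-!
LOW, first part: the charts of the two ends, transfer of time functions, the ends are future sets.
-/

open scoped ContDiff
open Set Filter Topology

noncomputable section

namespace Vale.Agent.P354XJ

open Vale.Agent.P354n (R4)
open Vale.Agent.P354I (X rm rp)
open Vale.Agent.P354R (Pull)
open Vale.Agent.P354XE hiding Lor Tm
open Vale.Agent.P354XA (hor)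

variable {M a r1 r0 θ : ℝ} {g : Tw} {D : Set R4} {Xf Y : R4 → R4} {σ : Bool} {p q : R4}

/-- The inverse of the chart of an end, and the null coordinate which is positive on it. -/
def ci (M a : ℝ) (σ : Bool) : R4 → R4 := bif σ then ik M a else ik M a ∘ mir M a
def Vs (M a : ℝ) (σ : Bool) (p : R4) : ℝ := p.1 + (bif σ then kx M a p else -kx M a p)

/-- The charts of the ends. -/
structure Chs (M a : ℝ) : Prop where
  A : ∀ σ q, rm M a < rd q → ContDiffAt ℝ ∞ (ch M a σ) q ∧ ci M a σ (ch M a σ q) = q ∧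
    xs (ch M a σ q) ≠ 0 ∧ kr M a (ch M a σ q) = rd q ∧
    Vs M a σ (ch M a σ q) = mf M a (rd q) * Real.exp (ka M a * q.1) ∧
    (ch M a σ q).1 = (kap M a q).1
  B : ∀ σ p, xs p ≠ 0 → rm M a < kr M a p → 0 < Vs M a σ p → ContDiffAt ℝ ∞ (ci M a σ) p ∧
    ch M a σ (ci M a σ p) = p ∧ rd (ci M a σ p) = kr M a p
  kx : ∀ p, xs p ≠ 0 → ContDiffAt ℝ ∞ (kx M a) p
  cpt : ∀ c, IsCompact {p | xs p ≠ 0 ∧ |p.1| ≤ c ∧ |P354XE.kx M a p| ≤ c}

theorem chs_of (hK : KAP) (ha : a ≠ 0) (h : |a| < M) : Chs M a := by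
  obtain ⟨k1, k2, k3, k4, -⟩ := hK M a ha h
  have kr' : ∀ p, xs p ≠ 0 → kr M a (mir M a p) = kr M a p := fun p hp => by
    unfold kr
    rw [(k3 p hp).2.2.2.1, neg_sq]
    rfl
  refine ⟨fun σ q hq => ?_, fun σ p h1 h2 h3 => ?_, fun p hp => (k3 p hp).2.2.2.2, k4⟩
  · obtain ⟨a1, a2, a3, a4, a5⟩ := k1 q hq
    cases σ
    · obtain ⟨b1, b2, b3, b4, -⟩ := k3 _ a3
      refine ⟨b1.comp q a1, ?_, b3, (kr' _ a3).trans a4, ?_, rfl⟩
      · show ik M a (mir M a (mir M a (kap M a q))) = q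
        rw [b2, a2]
      · show (kap M a q).1 + -kx M a (mir M a (kap M a q)) = _
        rw [b4, neg_neg, a5]
    · exact ⟨a1, a2, a3, a4, a5, rfl⟩
  · cases σ
    · obtain ⟨b1, b2, b3, b4, -⟩ := k3 p h1
      obtain ⟨c1, c2, c3⟩ := k2 (mir M a p) b3 (by rwa [kr' p h1]) (by rw [b4]; exact h3)
      refine ⟨c1.comp p b1, ?_, c3.trans (kr' p h1)⟩
      show mir M a (kap M a (ik M a (mir M a p))) = p
      rw [c2, b2]
    · exact k2 p h1 h2 h3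

lemma mf_pos {r : ℝ} (h : rm M a < r) : 0 < mf M a r := Real.rpow_pos_of_pos (sub_pos.2 h) _

lemma Chs.kr_cont (h : Chs M a) (hp : xs p ≠ 0) : ContinuousAt (kr M a) p :=
  (continuousAt_const.add ((h.kx p hp).continuousAt.pow 2)).sub (continuousAt_fst.pow 2)

lemma Chs.Vs_cont (h : Chs M a) (hp : xs p ≠ 0) : ContinuousAt (Vs M a σ) p := by
  cases σ
  exacts [continuousAt_fst.add (h.kx p hp).continuousAt.neg,
    continuousAt_fst.add (h.kx p hp).continuousAt]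

lemma Chs.mf_cont (h : Chs M a) (hp : xs p ≠ 0) (h2 : rm M a < kr M a p) :
    ContinuousAt (fun x => mf M a (kr M a x)) p :=
  ((h.kr_cont hp).sub continuousAt_const).rpow_const (Or.inl (sub_pos.2 h2).ne')

/-- The domain of the inverse chart is open. -/
lemma Chs.ev (h : Chs M a) (h1 : xs p ≠ 0) (h2 : rm M a < kr M a p) (h3 : 0 < Vs M a σ p) :
    ∀ᶠ x in 𝓝 p, xs x ≠ 0 ∧ rm M a < kr M a x ∧ 0 < Vs M a σ x :=
  (xs_cont.continuousAt.eventually_ne h1).and (((h.kr_cont h1).eventually (lt_mem_nhds h2)).and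
    ((h.Vs_cont h1).eventually (lt_mem_nhds h3)))

lemma fderiv_left {f f' : R4 → R4} (h1 : DifferentiableAt ℝ f q) (h2 : DifferentiableAt ℝ f' (f q))
    (h3 : ∀ᶠ x in 𝓝 q, f' (f x) = x) (v : R4) : fderiv ℝ f' (f q) (fderiv ℝ f q v) = v := by
  have k := (h2.hasFDerivAt.comp q h1.hasFDerivAt).unique
    ((hasFDerivAt_id q).congr_of_eventuallyEq h3)
  exact DFunLike.congr_fun k v

/-- Transfer of time functions by a local diffeomorphism. -/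
lemma tm_push {f f' : R4 → R4} {τ : R4 → ℝ} (h1 : ContDiffAt ℝ ∞ f q)
    (h2 : ContDiffAt ℝ ∞ f' (f q)) (h3 : ∀ᶠ x in 𝓝 q, f' (f x) = x)
    (h4 : ∀ᶠ x in 𝓝 (f q), f (f' x) = x) (hY : fderiv ℝ f q (Y q) = Xf (f q))
    (h : P354XE.Tm (pb f g) Y τ q) : P354XE.Tm g Xf (τ ∘ f') (f q) := by
  have e : f' (f q) = q := h3.self_of_nhds
  have d1 := h1.differentiableAt (by simp)
  have d2 := h2.differentiableAt (by simp)
  have t1 : ContDiffAt ℝ 1 τ (f' (f q)) := e.symm ▸ h.1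
  have d : ∀ v, fderiv ℝ (τ ∘ f') (f q) v = fderiv ℝ τ q (fderiv ℝ f' (f q) v) := fun v => by
    rw [fderiv_comp _ (t1.differentiableAt one_ne_zero) d2, e]
    rfl
  have r : ∀ v, fderiv ℝ f q (fderiv ℝ f' (f q) v) = v := fun v => by
    have := fderiv_left d2 (e.symm ▸ d1) h4 v
    rwa [e] at this
  refine ⟨t1.comp _ (h2.of_le (by simp)), ?_, fun v v0 k => ?_⟩
  · rw [d, ← hY, fderiv_left d1 d2 h3]
    exact h.2.1
  · have := h.2.2 (fderiv ℝ f' (f q) v) (fun k0 => v0 (by rw [← r v, k0, map_zero])) (d v ▸ k)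
    unfold pb at this
    rwa [r] at this

/-- The part r ≥ r0 of an end in the Kruskal chart. -/
def Ek (M a r0 θ : ℝ) (σ : Bool) : Set R4 :=
  {p | xs p ≠ 0 ∧ 0 ≤ p.1 ∧ r0 ≤ kr M a p ∧ θ * mf M a (kr M a p) ≤ Vs M a σ p}

/-- The standing hypotheses. -/
structure Hy (M a r1 r0 θ : ℝ) (g : Tw) (D : Set R4) (Xf : R4 → R4) : Prop where
  sub : |a| < M
  c : Chs M a
  h1 : rm M a < r1
  h2 : r1 < r0
  hθ : 0 < θ
  lor : P354XE.Lor g D Xf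
  D0 : D0 M a r1 ⊆ D

namespace Hy

variable (h : Hy M a r1 r0 θ g D Xf)
include h

lemma dom (hp : p ∈ Ek M a r0 θ σ) : xs p ≠ 0 ∧ rm M a < kr M a p ∧ 0 < Vs M a σ p := by
  have k := (h.h1.trans h.h2).trans_le hp.2.2.1
  exact ⟨hp.1, k, (mul_pos h.hθ (mf_pos k)).trans_le hp.2.2.2⟩

lemma Ek_D0 (hp : p ∈ Ek M a r0 θ σ) : p ∈ P354XE.D0 M a r1 :=
  ⟨hp.1, hp.2.1, h.h2.trans_le hp.2.2.1⟩

lemma Vs_eq (h1 : xs p ≠ 0) (h2 : rm M a < kr M a p) (h3 : 0 < Vs M a σ p) :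
    Vs M a σ p = mf M a (kr M a p) * Real.exp (ka M a * (ci M a σ p).1) := by
  obtain ⟨-, b2, b3⟩ := h.c.B σ p h1 h2 h3
  have := (h.c.A σ (ci M a σ p) (b3 ▸ h2)).2.2.2.2.1
  rwa [b2, b3] at this

lemma ci_mem (hp : p ∈ Ek M a r0 θ σ) :
    ci M a σ p ∈ Er M a r1 r0 θ ∧ ch M a σ (ci M a σ p) = p := by
  obtain ⟨h1, h2, h3⟩ := h.dom hp
  obtain ⟨-, b2, b3⟩ := h.c.B σ p h1 h2 h3
  refine ⟨⟨⟨b3 ▸ h.h2.trans_le hp.2.2.1, ?_, ?_⟩, b3 ▸ hp.2.2.1⟩, b2⟩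
  · have := hp.2.2.2
    rw [h.Vs_eq h1 h2 h3, mul_comm] at this
    exact le_of_mul_le_mul_left this (mf_pos h2)
  · rw [← (h.c.A σ (ci M a σ p) (b3 ▸ h2)).2.2.2.2.2, b2]
    exact hp.2.1

lemma ch_mem (hq : q ∈ Er M a r1 r0 θ) : ch M a σ q ∈ Ek M a r0 θ σ := by
  have k := h.h1.trans hq.1.1
  obtain ⟨-, -, a3, a4, a5, a6⟩ := h.c.A σ q k
  refine ⟨a3, a6 ▸ hq.1.2.2, a4 ▸ hq.2, ?_⟩
  rw [a4, a5, mul_comm]
  exact mul_le_mul_of_nonneg_left hq.1.2.1 (mf_pos k).le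

lemma tm {τ : R4 → ℝ} (hp : p ∈ Ek M a r0 θ σ)
    (hY : ∀ p ∈ En M a r1 θ, fderiv ℝ (ch M a σ) p (Y p) = Xf (ch M a σ p))
    (k : P354XE.Tm (pb (ch M a σ) g) Y τ (ci M a σ p)) : P354XE.Tm g Xf (τ ∘ ci M a σ) p := by
  obtain ⟨h1, h2, h3⟩ := h.dom hp
  obtain ⟨m, e⟩ := h.ci_mem hp
  have r := h.h1.trans m.1.1
  have := tm_push (h.c.A σ _ r).1 (e.symm ▸ (h.c.B σ p h1 h2 h3).1)
    ((P354XA.rd_cont.continuousAt.eventually (lt_mem_nhds r)).mono fun x hx => (h.c.A σ x hx).2.1)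
    (e.symm ▸ (h.c.ev h1 h2 h3).mono fun x hx => (h.c.B σ x hx.1 hx.2.1 hx.2.2).2.1)
    (hY _ m.1) k
  rwa [e] at this

lemma der {τ : R4 → ℝ} {z : ℝ → R4} {u : ℝ} (hp : z u ∈ D) (k : P354XE.Tm g Xf τ (z u))
    (hz : DifferentiableAt ℝ z u) (hF : Ft g Xf (z u) (deriv z u)) :
    ∃ f' > 0, HasDerivAt (fun u => τ (z u)) f' u := by
  refine ⟨_, tm_pos h.lor hp k (fun k0 => ?_) hF.1.le hF.2.le,
    (k.1.differentiableAt one_ne_zero).hasFDerivAt.comp_hasDerivAt u hz.hasDerivAt⟩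
  have := hF.1
  rw [k0, show g (z u) 0 0 = 0 by simpa using (bilin_of h.lor hp).smul_left 0 0 0] at this
  exact lt_irrefl _ this

/-- The ends are future sets. -/
lemma up {z : ℝ → R4} {s t : ℝ}
    (hY : ∀ p ∈ En M a r1 θ, fderiv ℝ (ch M a σ) p (Y p) = Xf (ch M a σ p))
    (hE : EndOK M a r1 r0 θ (pb (ch M a σ) g) Y) (hst : s ≤ t)
    (hz : ∀ u ∈ Icc s t, (xs (z u) ≠ 0 ∧ 0 ≤ (z u).1 ∧ r0 ≤ kr M a (z u)) ∧
      DifferentiableAt ℝ z u ∧ Ft g Xf (z u) (deriv z u))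
    (h0 : z s ∈ Ek M a r0 θ σ) : z t ∈ Ek M a r0 θ σ := by
  have lt := h.h1.trans h.h2
  have mem : ∀ u ∈ Icc s t, 0 ≤ Vs M a σ (z u) - θ * mf M a (kr M a (z u)) →
      z u ∈ Ek M a r0 θ σ := fun u hu k =>
    ⟨(hz u hu).1.1, (hz u hu).1.2.1, (hz u hu).1.2.2, sub_nonneg.1 k⟩
  refine mem t ⟨hst, le_rfl⟩ ?_
  by_contra k
  obtain ⟨τ, t1, t2, t3⟩ := last_time (c := fun u => Vs M a σ (z u) - θ * mf M a (kr M a (z u)))
    (isClosed_Ici (a := (0 : ℝ))) (fun u hu => (((h.c.Vs_cont (hz u hu).1.1).sub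
      (continuousAt_const.mul (h.c.mf_cont (hz u hu).1.1 (lt.trans_le (hz u hu).1.2.2)))).comp
      (hz u hu).2.1.continuousAt).continuousWithinAt) hst (sub_nonneg.2 h0.2.2.2) k
  rw [frontier_Ici, mem_singleton_iff] at t2
  have t4 := Ico_subset_Icc_self t1
  have m := mem τ t4 t2.ge
  obtain ⟨h1, h2, h3⟩ := h.dom m
  have e : Real.exp (ka M a * (ci M a σ (z τ)).1) = θ := by
    rw [h.Vs_eq h1 h2 h3, sub_eq_zero, mul_comm θ] at t2
    exact mul_left_cancel₀ (mf_pos h2).ne' t2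
  obtain ⟨f', f0, hf⟩ := h.der (h.D0 (h.Ek_D0 m))
    (h.tm m hY (hE.time _ (h.ci_mem m).1.1 (by rw [e]; linarith [h.hθ]))) (hz τ t4).2.1
    (hz τ t4).2.2
  have s1 := (sign_of_deriv (I := univ) (hf.sub_const (ci M a σ (z τ)).1).hasDerivWithinAt f0
    (sub_self _)).1
  rw [univ_inter] at s1
  obtain ⟨v, ⟨v1, v2⟩, v3⟩ := ((s1.and (nhdsWithin_le_nhds
    ((hz τ t4).2.1.continuousAt.eventually (h.c.ev h1 h2 h3)))).and (Ioc_mem_nhdsGT t1.2)).exists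
  refine t3 v v3 (mem_Ici.2 (sub_nonneg.2 ?_))
  rw [h.Vs_eq v2.1 v2.2.1 v2.2.2, mul_comm θ, ← e]
  exact mul_le_mul_of_nonneg_left (Real.exp_le_exp.2 (mul_le_mul_of_nonneg_left
    (sub_pos.1 v1).le (hor h.sub).2.2.2.2.1.le)) (mf_pos v2.2.1).le

/-- The chart of an end is an isometry. -/
lemma pull : ∃ D', Pull (ch M a σ) (pb (ch M a σ) g) D' g D ∧ Er M a r1 r0 θ ⊆ D' := by
  have ev : ∀ q, rm M a < rd q → ∀ᶠ x in 𝓝 q, rm M a < rd x := fun q hq =>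
    P354XA.rd_cont.continuousAt.eventually (lt_mem_nhds hq)
  refine ⟨{q | rm M a < rd q ∧ ch M a σ q ∈ D}, ⟨isOpen_iff_mem_nhds.2 fun q hq => (ev q hq.1).and
    ((h.c.A σ q hq.1).1.continuousAt (h.lor.isOpen.mem_nhds hq.2)), h.lor.isOpen, h.lor.met,
    fun q hq => (h.c.A σ q hq.1).1.contDiffWithinAt, fun q hq => hq.2, fun q hq => ?_,
    fun _ _ _ _ => rfl⟩, fun q hq => ⟨h.h1.trans hq.1.1, h.D0 (h.Ek_D0 (h.ch_mem hq))⟩⟩
  obtain ⟨a1, -, a3, a4, a5, -⟩ := h.c.A σ q hq.1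
  have b := (h.c.B σ _ a3 (a4 ▸ hq.1) (a5 ▸ mul_pos (mf_pos hq.1) (Real.exp_pos _))).1
  exact Function.LeftInverse.injective (fderiv_left (a1.differentiableAt (by simp))
    (b.differentiableAt (by simp)) ((ev q hq.1).mono fun x hx => (h.c.A σ x hx).2.1))

/-- The images of compact parts of an end. -/
lemma image {K : Set R4} (hK : IsCompact K) (k : K ⊆ Er M a r1 r0 θ) :
    IsCompact (ch M a σ '' K) ∧ ch M a σ '' K ⊆ Ek M a r0 θ σ :=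
  ⟨hK.image_of_continuousOn fun q hq =>
    (h.c.A σ q (h.h1.trans (k hq).1.1)).1.continuousAt.continuousWithinAt, by
    rintro _ ⟨q, hq, rfl⟩
    exact h.ch_mem (k hq)⟩

end Hy

end Vale.Agent.P354XJ
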