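import Vale.Agent.P354XJ.Low1

/-!
LOW, second part: the box between the ends, end points and bounds for curves below the slice.
-/

open scoped ContDiff
open Set Filter Topology

noncomputable section

namespace Vale.Agent.P354XJ

open Vale.Agent.P354n (R4)
open Vale.Agent.P354I (X rm rp)
open Vale.Agent.P354R (Pull)
open Vale.Agent.P354XE hiding Lor Tm
open Vale.Agent.P354XA (hor)

variable {M a r1 r0 θ L : ℝ} {g : Tw} {D S S' : Set R4} {Xf : R4 → R4} {p : R4} {z : ℝ → R4}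
  {A I : ℝ → ℝ}

lemma fc_mono (h : Fc g Xf S z) (k : S ⊆ S') : Fc g Xf S' z :=
  fun t ht => ⟨k (h t ht).1, (h t ht).2⟩

lemma lor_mono {D' : Set R4} (h : P354XE.Lor g D Xf) (ho : IsOpen D') (k : D' ⊆ D) :
    P354XE.Lor g D' Xf :=
  ⟨ho, ⟨fun y hy => h.met.lin y (k hy), fun y hy => h.met.symm y (k hy),
    fun y hy => h.met.nondeg y (k hy), fun a b => (h.met.smooth a b).mono k⟩,
    h.vac.imp fun _ e y hy => e y (k hy), fun p hp => h.sig p (k hp), fun p hp => h.tl p (k hp),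
    h.cont.mono k⟩

lemma ac_shift (h : Ac g Xf S L z A I) {s0 : ℝ} (h0 : s0 ∈ Ioo 0 L) {w : ℝ → R4}
    (hw : ∀ s ∈ Ioo 0 (L - s0), w s = z (s + s0) ∧ w s ∈ S') :
    Ac g Xf S' (L - s0) w (fun s => A (s + s0)) (fun s => I (s + s0)) := by
  have m : ∀ s ∈ Ioo 0 (L - s0), s + s0 ∈ Ioo 0 L := fun s hs =>
    ⟨add_pos hs.1 h0.1, lt_sub_iff_add_lt.1 hs.2⟩
  refine ⟨sub_pos.2 h0.2, ⟨h.prim.1.comp (f := fun s => s + s0) (by fun_prop) fun s hs =>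
    ⟨add_nonneg hs.1 h0.1.le, le_sub_iff_add_le.1 hs.2⟩, fun s hs =>
    ⟨(h.prim.2 _ (m s hs)).1.comp_add_const s s0, (h.prim.2 _ (m s hs)).2⟩⟩, fun s hs => ?_⟩
  have e : w =ᶠ[𝓝 s] fun u => z (u + s0) :=
    eventually_of_mem (Ioo_mem_nhds hs.1 hs.2) fun u hu => (hw u hu).1
  have e1 : deriv w =ᶠ[𝓝 s] fun u => deriv z (u + s0) :=
    e.deriv.trans (Eventually.of_forall fun u => deriv_comp_add_const z s0 u)
  have e2 : deriv (deriv w) s = deriv (deriv z) (s + s0) :=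
    e1.deriv_eq.trans (deriv_comp_add_const (deriv z) s0 s)
  obtain ⟨-, k1, k2⟩ := h.mem _ (m s hs)
  refine ⟨(hw s hs).2, (k1.comp s (f := fun u => u + s0) (by fun_prop)).congr_of_eventuallyEq e, ?_⟩
  rw [e2, e1.self_of_nhds, e.self_of_nhds]
  exact k2

lemma tm_fst (h : 0 < (Xf p).1 ∧ ∀ v ≠ 0, v.1 = 0 → 0 < g p v v) :
    P354XE.Tm g Xf (fun p => p.1) p := by
  have e : ∀ v, fderiv ℝ (fun p : R4 => p.1) p v = v.1 := fun v => by rw [fderiv_fst]; rfl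
  exact ⟨contDiffAt_fst, e _ ▸ h.1, fun v v0 k => h.2 v v0 (e v ▸ k)⟩

/-- The part r ≥ r0 of the future of T = 0, and the box between the ends. -/
def S0 (M a r0 : ℝ) : Set R4 := {p | xs p ≠ 0 ∧ 0 ≤ p.1 ∧ r0 ≤ kr M a p}
def Kb (M a r0 θ : ℝ) : Set R4 :=
  {p ∈ S0 M a r0 | p.1 + |kx M a p| ≤ θ * mf M a (kr M a p)}

lemma le_of_le_rpow {s b κ : ℝ} (h1 : 1 ≤ s) (h2 : κ < 1) (h : s ≤ b * s ^ κ) :
    s ≤ b ^ (1 - κ)⁻¹ := by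
  have s0 : 0 < s := one_pos.trans_le h1
  have k : s ^ (1 - κ) ≤ b := by
    rwa [Real.rpow_sub s0, Real.rpow_one, div_le_iff₀ (Real.rpow_pos_of_pos s0 _)]
  exact (Real.le_rpow_inv_iff_of_pos s0.le ((Real.rpow_nonneg s0.le _).trans k) (sub_pos.2 h2)).2 k

namespace Hy

variable (h : Hy M a r1 r0 θ g D Xf)
include h

lemma Kb_cpt : IsCompact (Kb M a r0 θ) := by
  obtain ⟨-, a1, a2, -⟩ := hor h.sub
  have a3 : 0 < rp M a := a1.trans_lt a2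
  have a4 : 0 ≤ rm M a / (2 * rp M a) := by positivity
  set c := (1 + (rp M a - rm M a) + θ) ^ (1 - 2 * (rm M a / (2 * rp M a)))⁻¹
  have bd : ∀ p ∈ Kb M a r0 θ, p.1 + |kx M a p| ≤ c := fun p hp => by
    obtain ⟨⟨-, b1, b2⟩, b3⟩ := hp
    have b4 := abs_nonneg (kx M a p)
    set s := 1 + (rp M a - rm M a) + (p.1 + |kx M a p|) with hs
    have s1 : 1 ≤ s := by linarith
    have k1 : mf M a (kr M a p) ≤ s ^ (2 * (rm M a / (2 * rp M a))) := by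
      rw [Real.rpow_mul (by linarith), Real.rpow_two]
      refine Real.rpow_le_rpow (by linarith [h.h1, h.h2]) ?_ a4
      unfold kr
      rw [← sq_abs (kx M a p)]
      nlinarith
    have k2 : 1 ≤ s ^ (2 * (rm M a / (2 * rp M a))) := Real.one_le_rpow s1 (by positivity)
    refine le_trans (by linarith) (le_of_le_rpow s1 ?_ ?_)
    · rw [← mul_div_assoc, div_lt_one (by positivity)]
      linarith
    · nlinarith [mul_le_mul_of_nonneg_left k1 h.hθ.le]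
  have hC := h.c.cpt c
  have ct : ContinuousOn (fun p : R4 => (p.1, kr M a p, θ * mf M a (kr M a p) -
      (p.1 + |kx M a p|))) {p | xs p ≠ 0 ∧ |p.1| ≤ c ∧ |kx M a p| ≤ c} := fun p hp =>
    (continuousAt_fst.prodMk ((h.c.kr_cont hp.1).prodMk ((continuousAt_const.mul
      (((h.c.kr_cont hp.1).sub continuousAt_const).rpow_const (Or.inr a4))).sub
      (continuousAt_fst.add (h.c.kx p hp.1).continuousAt.abs)))).continuousWithinAt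
  have cl := ct.preimage_isClosed_of_isClosed hC.isClosed
    ((isClosed_Ici (a := (0 : ℝ))).prod ((isClosed_Ici (a := r0)).prod (isClosed_Ici (a := (0 : ℝ)))))
  refine cast (congrArg IsCompact (Subset.antisymm (fun p hp => ?_) fun p hp => ?_))
    (hC.of_isClosed_subset cl inter_subset_left)
  · exact ⟨⟨hp.1.1, hp.2.1, hp.2.2.1⟩, sub_nonneg.1 hp.2.2.2⟩
  · have := bd p hp
    exact ⟨⟨hp.1.1, by rw [abs_of_nonneg hp.1.2.1]; linarith [abs_nonneg (kx M a p)],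
      by linarith [hp.1.2.1]⟩, hp.1.2.1, hp.1.2.2, sub_nonneg.2 hp.2⟩

lemma S0_D0 (hp : p ∈ S0 M a r0) : p ∈ P354XE.D0 M a r1 := ⟨hp.1, hp.2.1, h.h2.trans_le hp.2.2⟩

lemma Kb_Bx (hp : p ∈ Kb M a r0 θ) : p ∈ Bx M a r1 θ := by
  refine ⟨h.S0_D0 hp.1, Or.inr (hp.2.trans ?_)⟩
  nlinarith [mul_pos h.hθ (mf_pos ((h.h1.trans h.h2).trans_le hp.1.2.2))]

omit h in
lemma mem_Kb (hp : p ∈ S0 M a r0) (k : ∀ σ, p ∉ Ek M a r0 θ σ) : p ∈ Kb M a r0 θ := by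
  have e : ∀ σ, Vs M a σ p < θ * mf M a (kr M a p) := fun σ =>
    not_le.1 fun n => k σ ⟨hp.1, hp.2.1, hp.2.2, n⟩
  refine ⟨hp, ?_⟩
  rcases abs_choice (kx M a p) with n | n <;> rw [n]
  exacts [(e true).le, (e false).le]

variable (hB : ∀ p ∈ Bx M a r1 θ, 0 < (Xf p).1 ∧ ∀ v ≠ 0, v.1 = 0 → 0 < g p v v)
  (hE : ∀ σ, ∃ Y, (∀ p ∈ En M a r1 θ, fderiv ℝ (ch M a σ) p (Y p) = Xf (ch M a σ p)) ∧
    EndOK M a r1 r0 θ (pb (ch M a σ) g) Y)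
include hE

lemma up' {σ : Bool} {s t : ℝ} (hst : s ≤ t) (hz : ∀ u ∈ Icc s t, z u ∈ S0 M a r0 ∧
    DifferentiableAt ℝ z u ∧ Ft g Xf (z u) (deriv z u)) (h0 : z s ∈ Ek M a r0 θ σ) :
    z t ∈ Ek M a r0 θ σ :=
  let ⟨_, hY, k⟩ := hE σ
  h.up hY k hst hz h0

/-- Curves with bounded acceleration come back to a compact set. -/
lemma lya (hz : Ac g Xf (S0 M a r0) L z A I) :
    ∃ K ⊆ S0 M a r0, IsCompact K ∧ ∃ᶠ s in 𝓝[<] L, z s ∈ K := by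
  by_cases k : ∃ σ, ∃ s ∈ Ioo 0 L, z s ∈ Ek M a r0 θ σ
  swap
  · push Not at k
    refine ⟨_, fun p hp => hp.1, h.Kb_cpt, Eventually.frequently ?_⟩
    filter_upwards [Ioo_mem_nhdsLT hz.pos] with s hs
    exact mem_Kb (hz.mem s hs).1 fun σ => k σ s hs
  obtain ⟨σ, s0, h0, k⟩ := k
  have m : ∀ s ∈ Ioo 0 (L - s0), s + s0 ∈ Ioo 0 L := fun s hs =>
    ⟨add_pos hs.1 h0.1, lt_sub_iff_add_lt.1 hs.2⟩
  have inE : ∀ s ∈ Ioo 0 (L - s0), z (s + s0) ∈ Ek M a r0 θ σ := fun s hs =>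
    h.up' hE (le_add_of_nonneg_left hs.1.le) (fun u hu =>
      have := hz.mem u (Icc_subset_Ioo h0.1 (m s hs).2 hu)
      ⟨this.1, this.2.1.differentiableAt (by simp), this.2.2.1⟩) k
  obtain ⟨Y, hY, hO⟩ := hE σ
  obtain ⟨D', hP, hD'⟩ := h.pull (σ := σ)
  obtain ⟨K, k1, k2, k3⟩ := hO.lya _ _ _ _ (P354XA.pac _ _ _ _ _ Y Xf _ (Ek M a r0 θ σ) _
    (fun s => ci M a σ (z (s + s0))) _ _ hP hD' (fun p hp => hY p hp.1) (fun s hs => ⟨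
      (h.ci_mem (inE s hs)).1, by
        obtain ⟨h1, h2, h3⟩ := h.dom (inE s hs)
        exact (h.c.B σ _ h1 h2 h3).1.comp s (f := fun u => z (u + s0))
          ((hz.mem _ (m s hs)).2.1.comp s (f := fun u => u + s0) (by fun_prop))⟩)
    (ac_shift hz h0 fun s hs => ⟨(h.ci_mem (inE s hs)).2,
      h.ch_mem (h.ci_mem (inE s hs)).1⟩))
  obtain ⟨i1, i2⟩ := h.image (σ := σ) k2 k1
  refine ⟨_, fun p hp => ⟨(i2 hp).1, (i2 hp).2.1, (i2 hp).2.2.1⟩, i1, ?_⟩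
  have t : Tendsto (fun s => s + s0) (𝓝[<] (L - s0)) (𝓝[<] L) :=
    tendsto_nhdsWithin_iff.2 ⟨by
      simpa using ((continuous_add_const s0).tendsto (L - s0)).mono_left nhdsWithin_le_nhds,
      eventually_nhdsWithin_of_forall fun s hs => mem_Iio.2 (lt_sub_iff_add_lt.1 hs)⟩
  refine t.frequently ((k3.and_eventually (Ioo_mem_nhdsLT (sub_pos.2 h0.2))).mono fun s hs => ?_)
  exact ⟨_, hs.1, (h.ci_mem (inE s hs.2)).2⟩

include hB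

/-- Curves have past end points. -/
lemma past (hz : Fc g Xf (S0 M a r0) z) : ∃ x ∈ S0 M a r0, Tendsto z (𝓝[>] 0) (𝓝 x) := by
  have hD := fc_mono hz fun p hp => h.D0 (h.S0_D0 hp)
  by_cases k : ∃ σ, ∀ t ∈ Ioo (0 : ℝ) 1, z t ∈ Ek M a r0 θ σ
  · obtain ⟨σ, k⟩ := k
    obtain ⟨Y, hY, hO⟩ := hE σ
    obtain ⟨τ, t1, t2⟩ := hO.lid
    have tm : ∀ p ∈ Ek M a r0 θ σ, P354XE.Tm g Xf (τ ∘ ci M a σ) p := fun p hp =>
      h.tm hp hY (t1 _ (h.ci_mem hp).1)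
    have d := fun t ht => h.der (hD t ht).1 (tm _ (k t ht)) (hD t ht).2.1 (hD t ht).2.2
    have mo : StrictMonoOn (fun t => (τ ∘ ci M a σ) (z t)) (Ioo 0 1) :=
      strictMonoOn_of_deriv_pos (convex_Ioo _ _)
        (fun t ht => (d t ht).choose_spec.2.continuousAt.continuousWithinAt) fun t ht => by
          obtain ⟨f', f0, e⟩ := d t (interior_subset ht)
          rwa [e.deriv]
    have m : (1 / 2 : ℝ) ∈ Ioo (0 : ℝ) 1 := by norm_num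
    obtain ⟨i1, i2⟩ := h.image (σ := σ) (t2 (τ (ci M a σ (z (1 / 2))))) fun p hp => hp.1
    obtain ⟨x, hx, e⟩ := (lim_main g D Xf _ _ z h.lor i1 (fun p hp => h.D0 (h.Ek_D0 (i2 hp)))
      (fun p hp => tm p (i2 hp)) hD).2 (mem_of_superset (Ioo_mem_nhdsGT m.1) fun t ht =>
        have n : t ∈ Ioo (0 : ℝ) 1 := ⟨ht.1, ht.2.trans m.2⟩
        ⟨_, ⟨(h.ci_mem (k t n)).1, (mo n m ht.2).le⟩, (h.ci_mem (k t n)).2⟩)
    exact ⟨x, ⟨(i2 hx).1, (i2 hx).2.1, (i2 hx).2.2.1⟩, e⟩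
  push Not at k
  choose t t1 t2 using k
  have ev : ∀ σ, ∀ᶠ s in 𝓝[>] 0, z s ∈ S0 M a r0 ∧ z s ∉ Ek M a r0 θ σ := fun σ =>
    mem_of_superset (Ioo_mem_nhdsGT (t1 σ).1) fun s hs =>
      ⟨(hz s ⟨hs.1, hs.2.trans (t1 σ).2⟩).1, fun n => t2 σ (h.up' hE hs.2.le
        (fun u hu => hz u (Icc_subset_Ioo hs.1 (t1 σ).2 hu)) n)⟩
  obtain ⟨x, hx, e⟩ := (lim_main g D Xf _ _ z h.lor h.Kb_cpt (fun p hp => h.D0 (h.S0_D0 hp.1))
    (fun p hp => tm_fst (hB p (h.Kb_Bx hp))) hD).2 ((eventually_all.2 ev).mono fun s hs =>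
      mem_Kb (hs true).1 fun σ => (hs σ).2)
  exact ⟨x, hx.1, e⟩

end Hy

lemma pt_xs (p : R4) : pt p.1 (xs p) = p := rfl

/-- **LOW.** -/
theorem low_main (hK : KAP) : LOW := by
  intro M a r1 r0 r3 θ d D g Xf ρ J ha hM h1 hθ _ lor hD ind hB hE sl
  have h : Hy M a r1 r0 θ g D Xf := ⟨hM, chs_of hK ha hM, h1, sl.lt.1, hθ, lor, hD⟩
  obtain ⟨y0, hy0⟩ := exists_ne (0 : X)
  have r13 : r1 < r3 := by
    have k1 := (sl.mem y0 hy0).1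
    have k2 := (sl.zero _ k1).2 ⟨y0, hy0, rfl⟩
    exact k1.2.2.trans_le (not_lt.1 fun n => (sl.neg _ k1.1 n).ne k2)
  have ev : ∀ p r, xs p ≠ 0 → r < kr M a p → ∀ᶠ x in 𝓝 p, xs x ≠ 0 ∧ r < kr M a x :=
    fun p r k1 k2 => (xs_cont.continuousAt.eventually_ne k1).and
      ((h.c.kr_cont k1).eventually (lt_mem_nhds k2))
  have p0 : ∀ y ≠ 0, xs (pt 0 y) ≠ 0 ∧ r3 < kr M a (pt 0 y) := fun y hy =>
    ⟨by rwa [xs_pt], sl.lt.2.trans_le (by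
      show _ ≤ _ + _ - (0 : ℝ) ^ 2
      nlinarith [sq_nonneg (kx M a (pt 0 y))])⟩
  have p1 : ∀ y ≠ 0, pt 0 y ∈ D0 M a r1 := fun y hy => ⟨(p0 y hy).1, le_rfl, r13.trans (p0 y hy).2⟩
  have p2 : ∀ y ≠ 0, P354XE.Tm g Xf (fun p => p.1) (pt 0 y) := fun y hy =>
    tm_fst (hB _ ⟨p1 y hy, Or.inl rfl⟩)
  obtain ⟨O, o1, o2, o3, o4, o5⟩ := pcol g {p ∈ D | xs p ≠ 0 ∧ r3 < kr M a p} Xf
    (lor_mono lor (isOpen_iff_mem_nhds.2 fun p hp => inter_mem (lor.isOpen.mem_nhds hp.1)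
      (ev p r3 hp.2.1 hp.2.2)) fun p hp => hp.1) fun y hy => ⟨⟨hD (p1 y hy), p0 y hy⟩, p2 y hy⟩
  set D' := {p ∈ D0 M a r1 | 0 < p.1} ∪ O
  have a1 : D0 M a r1 ⊆ D' := fun p hp => by
    rcases hp.2.1.eq_or_lt with k | k
    · exact Or.inr (pt_xs p ▸ k ▸ o3 _ hp.1)
    · exact Or.inl ⟨hp, k⟩
  have a2 : ∀ p ∈ D', xs p ≠ 0 ∧ r1 < kr M a p := by
    rintro p (k | k)
    exacts [⟨k.1.1, k.1.2.2⟩, ⟨(o1 k).2.1, r13.trans (o1 k).2.2⟩]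
  have a3 : ∀ p ∈ D', 0 ≤ p.1 → p ∈ D0 M a r1 := fun p hp k => ⟨(a2 p hp).1, k, (a2 p hp).2⟩
  have a4 : ∀ p ∈ D', p.1 ≤ 0 → p ∈ O := fun p hp k =>
    hp.resolve_left fun n => absurd n.2 (not_lt.2 k)
  have a5 : ∀ p ∈ O, ρ p < 0 := fun p hp => sl.neg p (o1 hp).2.1 (o1 hp).2.2
  have a6 : D' ⊆ D := union_subset (fun p hp => hD hp.1) fun p hp => (o1 hp).1
  have a7 : {p ∈ D' | ρ p < 0 ∧ 0 ≤ p.1} ⊆ S0 M a r0 := fun p hp => ⟨(a2 p hp.1).1, hp.2.2,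
    not_lt.1 fun n => lt_asymm hp.2.1 (sl.pos p (a3 p hp.1 hp.2.2) n)⟩
  have a8 : IsOpen D' := by
    refine IsOpen.union (isOpen_iff_mem_nhds.2 fun p hp => ?_) o2
    filter_upwards [ev p r1 hp.1.1 hp.1.2.2, continuousAt_fst.eventually (lt_mem_nhds hp.2)]
      with x x1 x2
    exact ⟨⟨x1.1, x2.le, x1.2⟩, x2⟩
  refine ⟨D', a6, ⟨lor_mono lor a8 a6, sl.cont.mono a2, sl.sm, sl.emb,
    fun y hy => ⟨a1 (sl.mem y hy).1, (sl.mem y hy).2⟩, fun p hp => ?_⟩, ind,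
    fun p hp => ⟨(a2 p hp).1, fun k => a5 p (a4 p hp k)⟩, fun y hy => ⟨a1 (p1 y hy), p2 y hy⟩, ?_,
    fun z hz => ?_, fun z hz => ?_, fun L z A I hz => ?_⟩
  · rcases le_or_gt 0 p.1 with k | k
    · exact sl.zero p (a3 p hp k)
    · refine iff_of_false (a5 p (a4 p hp k.le)).ne ?_
      rintro ⟨y, hy, rfl⟩
      exact absurd (sl.mem y hy).1.2.1 (not_le.2 k)
  · have x0 : pt 0 y0 ∈ {p ∈ D0 M a r1 | ρ p < 0} := ⟨p1 y0 hy0, a5 _ (o3 y0 hy0)⟩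
    have sA : {p ∈ D0 M a r1 | ρ p < 0} ⊆ {p ∈ D' | ρ p < 0} := fun p hp => ⟨a1 hp.1, hp.2⟩
    refine isPreconnected_of_forall (pt 0 y0) fun p hp => ?_
    rcases le_total 0 p.1 with k | k
    · exact ⟨_, sA, x0, ⟨a3 p hp.1 k, hp.2⟩, sl.conn⟩
    have n := (o4 p (a4 p hp.1 k)).2
    have n0 := n 0 ⟨le_rfl, zero_le_one⟩
    refine ⟨_ ∪ (fun c : ℝ => (c * p.1, p.2)) '' Icc 0 1, union_subset sA ?_, Or.inl x0,
      Or.inr ⟨1, ⟨zero_le_one, le_rfl⟩, by simp⟩, sl.conn.union (0 * p.1, p.2)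
        ⟨a3 _ (Or.inr n0) (zero_mul p.1).ge, a5 _ n0⟩ ⟨0, ⟨le_rfl, zero_le_one⟩, rfl⟩
        (isPreconnected_Icc.image _ (by fun_prop))⟩
    rintro _ ⟨c, hc, rfl⟩
    exact ⟨Or.inr (n c hc), a5 _ (n c hc)⟩
  · obtain ⟨x, hx, e⟩ := h.past hB hE (fc_mono hz a7)
    exact ⟨x, a1 (h.S0_D0 hx), e⟩
  · obtain ⟨x, hx, e⟩ := o5 z (fc_mono hz fun p hp => ⟨a4 p hp.1 hp.2.le, hp.2⟩)
    exact ⟨x, Or.inr hx, e⟩
  · obtain ⟨K, k1, k2⟩ := h.lya hE ⟨hz.pos, hz.prim, fun s hs =>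
      ⟨a7 (hz.mem s hs).1, (hz.mem s hs).2⟩⟩
    exact ⟨K, fun p hp => a1 (h.S0_D0 (k1 hp)), k2⟩

end Vale.Agent.P354XJ
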